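import Vale.Agent.P277Z.St.Sk
import Vale.Agent.P277Z.Val.LiftsA

/-!
# P277: the first model
-/

open scoped Manifold ContDiff Topology ComplexOrder
open Vale.Agent.P277 hiding Amin IsFlipR
open Vale.Agent.P272.K Vale.Agent.P285.H281.FD Vale.Agent.P277.HD Set Filter
open Vale.Agent.P277.PH (HolF)
open Vale.Agent.P277Z.Val Vale.Agent.P277Z.GH

noncomputable section

namespace Vale.Agent.P277Z.St

namespace Fst

/-- the preimage of a set with dense interior under a map which is injective on a dense set -/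
theorem dense_pre {Y X : CSp} {f : Y.pt → X.pt} (hc : Continuous f) (hs : Function.Surjective f)
    {O : Set Y.pt} (hO : IsOpen O) (hd : Dense O) (hi : ∀ y y', y ∈ O → f y' = f y → y' = y)
    {S : Set X.pt} (hS : Dense S) : Dense (f ⁻¹' S) := by
  refine dense_iff_inter_open.2 fun U hU hn => ?_
  obtain ⟨y, hy⟩ := hd.inter_open_nonempty U hU hn
  have h1 : IsOpen (f '' (U ∩ O)ᶜ)ᶜ :=
    (isClosedMap_of_continuous hc _ (hU.inter hO).isClosed_compl).isOpen_compl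
  obtain ⟨x, h2, h3⟩ := hS.inter_open_nonempty _ h1
    ⟨f y, fun ⟨y', h4, h5⟩ => h4 (hi y y' hy.2 h5 ▸ hy)⟩
  obtain ⟨y', rfl⟩ := hs x
  exact ⟨y', (not_not.1 fun h => h2 ⟨y', h, rfl⟩ : y' ∈ U ∩ O).1, h3⟩

variable {V : Lg} {X X' : CSp} {p : V.W → X.pt} {exc : Finset (Fin V.r)}

theorem dense_exc (V : Lg) (exc : Finset (Fin V.r)) : Dense (⋃ l ∈ exc, V.G l)ᶜ :=
  (Lf.dense_compl V).mono (compl_subset_compl.2 (Lf.sub_E V exc))

theorem holMap (h : Res V X p exc) (y : V.W) : HolMap V.X X p y := ⟨h.cont.continuousAt, h.hol y⟩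

theorem res_dense (h : Res V X p exc) {S : Set X.pt} (hS : Dense S) : Dense (p ⁻¹' S) :=
  dense_pre (Y := V.X) h.cont h.surj h.emb.isOpen (dense_exc V exc) h.inj hS

theorem bim_dense {f : X'.pt → X.pt} {A : Set X.pt} (h : IsBim X' X f A) {S : Set X.pt}
    (hS : Dense S) : Dense (f ⁻¹' S) :=
  dense_pre h.cont h.surj ((isClosed_of_isAn h.an).preimage h.cont).isOpen_compl h.dense h.inj hS

theorem not_mem_img (h : Res V X p exc) {y : V.W} :
    p y ∉ p '' ⋃ l ∈ exc, V.G l ↔ y ∉ ⋃ l ∈ exc, V.G l :=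
  ⟨fun h1 h2 => h1 ⟨y, h2, rfl⟩, fun h1 ⟨y', h2, h3⟩ => h1 (h.inj y y' h1 h3 ▸ h2)⟩

/-- a lift of a log resolution is bimeromorphic -/
theorem isBim_lift {q : V.W → X'.pt} {g : X'.pt → X.pt} (h : Res V X (fun y => g (q y)) exc)
    (hq : ∀ y, HolMap V.X X' q y) (hs : Function.Surjective q) (hg : ∀ x, HolMap X' X g x) :
    IsBim V.X X' q (g ⁻¹' ((fun y => g (q y)) '' ⋃ l ∈ exc, V.G l)) where
  cont := continuous_iff_continuousAt.2 fun y => (hq y).1
  holo y := (hq y).2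
  surj := hs
  an := h.an.preimage hg
  dense := (dense_exc V exc).mono fun _ hy => (not_mem_img h).2 hy
  inj y y' hy e := h.inj y y' ((not_mem_img h).1 hy) (congrArg g e)
  iso y f hy hf := by
    have h1 := (not_mem_img h).1 hy
    have he := PH.at_chartAt (n := 4) (show V.W from y)
    refine ⟨_, (hg _).2 _ (h.emb.hol_of_analyticAt y h1 he (hf _ he)), ?_⟩
    filter_upwards [h.emb.isOpen.mem_nhds h1] with y' h2
    exact congrArg f (h.emb.inv_apply y h2).symm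

/-- a log resolution of a connected normal space is connected -/
theorem conn (hX : IsNormal 4 X) [ConnectedSpace X.pt] (h : Res V X p exc) :
    ConnectedSpace V.W := by
  classical
  obtain ⟨x₀⟩ : Nonempty X.pt := inferInstance
  refine connectedSpace_iff_clopen.2 ⟨⟨(h.surj x₀).choose⟩, fun C hC => ?_⟩
  have hcl := isClosedMap_of_continuous (X := V.X) h.cont
  have hd := dense_exc V exc
  have hf : ∀ x ∈ univ \ p '' ⋃ l ∈ exc, V.G l,
      X.Hol (fun x => if x ∈ p '' C then 1 else 0) x := by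
    intro x hx
    obtain ⟨y, rfl⟩ := h.surj x
    have h1 := fun y' => h.inj y y' ((not_mem_img h).1 hx.2)
    by_cases hy : y ∈ C
    · refine hol_congr (hol_const 1 _) ?_
      filter_upwards [(hcl _ hC.compl.1).isOpen_compl.mem_nhds
        fun ⟨y', h2, h3⟩ => h2 (h1 y' h3 ▸ hy)] with x' hx'
      obtain ⟨y', rfl⟩ := h.surj x'
      exact if_pos ⟨y', not_not.1 fun h2 => hx' ⟨y', h2, rfl⟩, rfl⟩
    · refine hol_congr (hol_const 0 _) ?_
      filter_upwards [(hcl _ hC.1).isOpen_compl.mem_nhds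
        fun ⟨y', h2, h3⟩ => hy (h1 y' h3 ▸ h2)] with x' hx' using if_neg hx'
  obtain ⟨g, hg, hgf⟩ := hX.ext univ _ isOpen_univ h.an (h.dim.mono inter_subset_right) _ hf
  have hgc : Continuous g :=
    continuous_iff_continuousAt.2 fun x => hol_continuousAt (hg x trivial)
  have hT : ({0, 1} : Set ℂ).Finite := toFinite _
  have hm : MapsTo g univ {0, 1} := fun x _ => by
    refine closure_minimal (s := (p '' ⋃ l ∈ exc, V.G l)ᶜ) (t := g ⁻¹' {0, 1}) (fun x hx => ?_)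
      (hT.isClosed.preimage hgc) (dense_compl_of_dimLe (by norm_num) hX.dense h.dim x)
    rw [mem_preimage, hgf x ⟨trivial, hx⟩]
    split_ifs <;> simp
  by_contra hne
  obtain ⟨y, h1, h2⟩ := hd.inter_open_nonempty C hC.2
    (nonempty_iff_ne_empty.2 fun e => hne (Or.inl e))
  obtain ⟨y', h3, h4⟩ := hd.inter_open_nonempty Cᶜ hC.compl.2
    (nonempty_compl.2 fun e => hne (Or.inr e))
  have h5 := isPreconnected_univ.constant_of_mapsTo hT.isDiscrete hgc.continuousOn hm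
    (mem_univ (p y)) (mem_univ (p y'))
  rw [hgf _ ⟨trivial, (not_mem_img h).2 h2⟩, hgf _ ⟨trivial, (not_mem_img h).2 h4⟩,
    if_pos ⟨y, h1, rfl⟩, if_neg fun ⟨y'', h6, h7⟩ => h3 (h.inj y' y'' h4 h7 ▸ h6)] at h5
  exact one_ne_zero h5

/-- a log resolution of a Kähler space is Kähler -/
theorem kahler (hKR : StKR) (hKP : StKProj) (hKM : StKMan) (hX : IsNormal 4 X) (hK : Kah X)
    (h : Res V X p exc) : ∃ χ : Chart 4 V.W → Cm 4 → Matrix (Fin 4) (Fin 4) ℂ, IsKahler χ := by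
  obtain ⟨P, -, -, hP, hA, -⟩ := h.amp
  exact (hKM V.W).1 (hKP V.X X p _ P (hKR X hK) (holMap h) (res_dense h hX.dense)
    ⟨hP.isOpen, hP.cover, fun i j y hi hj e he => (hP.holo i j e y he hi hj).analyticAt,
      hP.ne_zero, hP.cocycle⟩ hA)

end Fst

open Fst in
theorem first_of (hR : StRes0) (hD : StDom) (hP : StPrin) (hC : StComp) (hF : StFam) (hKR : StKR)
    (hKP : StKProj) (hKM : StKMan) : StFirst := by
  intro X s Q G hX hK hc hQ
  obtain ⟨V₀, p₀, r₀, -⟩ := hR X hX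
  obtain ⟨A, hA⟩ := G.bim
  obtain ⟨P, hP1, hP2⟩ := G.proj
  obtain ⟨V₁, π₁, q₁, -, e₁, -, -, r₁, hq₁, hπ, -, b₁⟩ :=
    hD X G.X' G.π A P hX G.normal hA hP1 hP2 V₀ p₀ _ r₀
  rw [← funext hπ] at r₁
  let T : Fin s ⊕ (Fin s ⊕ Fin G.e) → Set V₁.W :=
    Sum.elim (fun t => (fun y => G.π (q₁ y)) ⁻¹' Q t) fun u => q₁ ⁻¹' G.P u
  have hT : ∀ a, IsAn V₁.X univ (T a) ∧ Dense (T a)ᶜ := by
    rintro (t | u)
    · exact ⟨(hQ t).an.preimage (holMap r₁),
        res_dense r₁ (dense_compl_of_dimLe (by norm_num) hX.dense (hQ t).dim)⟩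
    · exact ⟨(G.prime u).an.preimage hq₁,
        bim_dense b₁ (dense_compl_of_dimLe (by norm_num) G.normal.dense (G.prime u).dim)⟩
  choose I hI using fun a => hF V₁.X (T a) (hT a).1
  let ε := Fintype.equivFin (Fin s ⊕ (Fin s ⊕ Fin G.e))
  obtain ⟨V₂, π₂, e₂, r₂, hE, -⟩ := hP V₁ (res_ne r₁) _ (fun j => I (ε.symm j))
    fun j => hI _ ▸ (hT _).2
  obtain ⟨e, r, -⟩ := hC V₂ V₁ X π₂ _ e₂ e₁ hX r₂ r₁ fun y hy => (hE y).2 (Or.inl hy)
  have hs : ∀ y a, π₂ y ∈ T a → y ∈ V₂.E := fun y a hy =>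
    (hE y).2 (Or.inr ⟨ε a, by rwa [ε.symm_apply_apply, hI]⟩)
  obtain ⟨χ, hχ⟩ := kahler hKR hKP hKM hX hK r
  exact ⟨V₂, fun y => q₁ (π₂ y), e, χ, ⟨r, isBim_lift r
    (fun y => ⟨(hq₁ _).1.comp r₂.cont.continuousAt, fun g hg => r₂.hol y _ ((hq₁ _).2 g hg)⟩)
    (b₁.surj.comp r₂.surj) fun x => ⟨hA.cont.continuousAt, hA.holo x⟩,
    fun y t => hs y (.inl t), fun y u => hs y (.inr u)⟩, hχ, conn hX r⟩

end Vale.Agent.P277Z.St
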