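import Vale.Agent.P277Z.GH.Sk

/-!
# P277: the top statement and the bridge to the models (statements)
-/

open scoped Manifold ContDiff Topology ComplexOrder
open Vale.Agent.P277 hiding Amin IsFlipR
open Vale.Agent.P272.K Vale.Agent.P285.H281.FD Vale.Agent.P277.HD Set Filter
open Vale.Agent.P277.PH (HolF)
open Vale.Agent.P277Z.Val

noncomputable section

namespace Vale.Agent.P277Z.St

/-- **TOP**: `S = (· ≤ 1)` is the problem, `S = (· < 1)` is the klt case -/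
def TOP (S : ℝ → Prop) : Prop :=
  ∀ (X Z : ℕ → CSp) (f : ∀ i, (X i).pt → (Z i).pt) (f' : ∀ i, (X (i + 1)).pt → (Z i).pt) (s : ℕ)
    (Q : ∀ i, Fin s → Set (X i).pt) (G : GP (X 0) (Q 0)), ConnectedSpace (X 0).pt →
    (∀ i, IsNormal 4 (X i)) → (∀ i, Kah (X i)) → (∀ i t, IsPrime (X i) (Q i t)) →
    (∀ i, Function.Injective (Q i)) → G.Coef S →
    ¬ ∀ i, Flip (X i) (Z i) (X (i + 1)) (f i) (f' i) (Q i) (Q (i + 1)) G.d

/-- **MOD**: the same for one log resolution; `MOD (· < 1)` is GKLT', `MOD (· ≤ 1)` is GLC' -/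
def MOD (S : ℝ → Prop) : Prop :=
  ∀ (k : ℕ) (m : Fin k → ℕ) (ρ : Fin k → ℝ) (T : Glc.Seq k ρ) (V : Lg)
    (χ : Chart 4 V.W → Cm 4 → Matrix (Fin 4) (Fin 4) ℂ) (M : Fin k → Bd V.W)
    (p : V.W → (T.X 0).pt) (exc : Finset (Fin V.r)) (n : Fin k → Fin V.r → ℤ),
    ConnectedSpace V.W → (∀ j, Kah (T.X j)) → (∀ e, 0 < ρ e) → ∑ e, ρ e * m e = 1 →
    IsPM m V χ M (T.X 0) (T.L 0) (T.c 0) p exc n → (∀ l, S (-disc ρ (T.c 0) n l)) →
    (∀ l ∉ exc, disc ρ (T.c 0) n l ≤ 0) → False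

/-- `Q` is near `x` a smooth hypersurface of the smooth part -/
def HypAt (X : CSp) (Q : Set X.pt) (x : X.pt) : Prop :=
  ∃ g z ζ, IsCh X g z ∧ g z = x ∧ Eqn ζ z ∧ ∀ᶠ w in 𝓝 z, g w ∈ Q ↔ ζ w = 0

/-- reduced divisors without common components -/
structure Divs (X : CSp) {ι : Type} (Q : ι → Set X.pt) (S : Set X.pt) : Prop where
  an : ∀ t, IsAn X univ (Q t)
  anS : IsAn X univ S
  dim : DimLe X 2 S
  hyp : ∀ t, ∀ x ∈ Q t, x ∉ S → HypAt X (Q t) x ∧ ∀ t', t' ≠ t → x ∉ Q t'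

/-- (PRIME) -/
def StPrime : Prop := ∀ (X : CSp) (ι : Type) [Finite ι] (Q : ι → Set X.pt), IsNormal 4 X →
  (∀ t, IsPrime X (Q t)) → Function.Injective Q → ∃ S, Divs X Q S

/-- (SMALL) -/
def StSmall : Prop := ∀ (X Z X' : CSp) (f : X.pt → Z.pt) (f' : X'.pt → Z.pt) (P : Bd X.pt)
  (P' : Bd X'.pt), IsNormal 4 X → IsNormal 4 Z → IsNormal 4 X' → Small X Z f → Small X' Z f' →
  IsLBx X P → RelAmple X Z f P → IsLBx X' P' → RelAmple X' Z f' P' →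
  (∃ A, IsSmall X Z f A ∧ IsSmall X' Z f' A) ∧ ¬ Function.Injective f ∧ ¬ Function.Injective f'

/-- (OPEN) ampleness is an open condition -/
def StOpen : Prop := ∀ (X Z : CSp) (f : X.pt → Z.pt) (k : ℕ) (L : Fin k → Bd X.pt) (ρ : Fin k → ℝ),
  IsNormal 4 X → (∀ x, HolMap X Z f x) → (∀ e, IsLBx X (L e)) → RAmple X Z f L ρ →
  ∃ ε > 0, ∀ (n : Fin k → ℤ) (d : ℕ), 1 ≤ d → (∀ e, |(n e : ℝ) / d - ρ e| < ε) →
    RelAmple X Z f (HD.Bd.lin L n)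

/-- the line bundles of `K` and of the `Q t` -/
def QC.fam {X : CSp} {s : ℕ} {Q : Fin s → Set X.pt} (C : QC X Q) : Fin (s + 1) → Bd X.pt :=
  Fin.cons C.K C.L

/-- their indices -/
def QC.idx {X : CSp} {s : ℕ} {Q : Fin s → Set X.pt} (C : QC X Q) : Fin (s + 1) → ℕ :=
  Fin.cons C.m C.c

/-- (ISO) the line bundles correspond under small maps -/
def StIso : Prop := ∀ (X Z X' : CSp) (f : X.pt → Z.pt) (f' : X'.pt → Z.pt) (A : Set Z.pt) (s : ℕ)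
  (Q : Fin s → Set X.pt) (Q' : Fin s → Set X'.pt) (S : Set X.pt) (S' : Set X'.pt) (C : QC X Q)
  (C' : QC X' Q'), IsNormal 4 X → IsNormal 4 X' → IsSmall X Z f A → IsSmall X' Z f' A →
  Divs X Q S → Divs X' Q' S' → (∀ t, f '' Q t = f' '' Q' t) →
  ∀ e, ∃ t, IsIso f f' A ((C.fam e).pow (C'.idx e)) ((C'.fam e).pow (C.idx e)) t

/-- (TRF) ampleness does not depend on the choice of the line bundles -/
def StTrf : Prop := ∀ (X Z : CSp) (f : X.pt → Z.pt) (k : ℕ) (L L' : Fin k → Bd X.pt)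
  (c c' : Fin k → ℕ) (ρ : Fin k → ℝ), (∀ e, 1 ≤ c e) → (∀ e, 1 ≤ c' e) → (∀ e, IsLBx X (L e)) →
  (∀ e, IsLBx X (L' e)) →
  (∀ e, ∃ t, IsIso (X := X) (Z := X) (X' := X) id id ∅ ((L e).pow (c' e)) ((L' e).pow (c e)) t) →
  RAmple X Z f L (fun e => ρ e / c e) → RAmple X Z f L' fun e => ρ e / c' e

/-- the family with the new generators `D' a = ∑ e, R a e • D e` -/
def regenZ {k k' : ℕ} {X : Type} (R : Fin k' → Fin k → ℤ) (L : Fin k → Bd X) (c : Fin k → ℕ) :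
    Fin k' → Bd X :=
  fun a => HD.Bd.lin L fun e => R a e * (((∏ e', c e') / c e : ℕ) : ℤ)

/-- (REGENZ) change of the generators -/
def StRegenZ : Prop :=
  ∀ (k k' : ℕ) (R : Fin k' → Fin k → ℤ) (x : Fin k' → ℝ) (X Z X' : CSp) (f : X.pt → Z.pt)
    (f' : X'.pt → Z.pt) (A : Set Z.pt) (L : Fin k → Bd X.pt) (L' : Fin k → Bd X'.pt)
    (c c' : Fin k → ℕ), (∀ e, 1 ≤ c e) → (∀ e, 1 ≤ c' e) →
    IsFlipR X Z X' f f' A L L' c c' (fun e => ∑ a, x a * R a e) →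
    IsFlipR X Z X' f f' A (regenZ R L c) (regenZ R L' c') (fun _ => ∏ e, c e)
      (fun _ => ∏ e, c' e) x

/-! ### the first model -/

/-- `F` is near `y` a unit times the monomial with the exponents `n` -/
def Mon (V : Lg) (n : Fin V.r → ℤ) (F : V.W → ℂ) (y : V.W) : Prop :=
  ∀ ζ, V.Eq y ζ → ∃ u, HolF 4 u y ∧ u y ≠ 0 ∧ ∀ᶠ y' in 𝓝 y, y' ∉ V.E → F y' = u y' * ∏ l, ζ l y' ^ n l

/-- (OC) the orders of a Cartier divisor -/
def StOrdC : Prop := ∀ (V : Lg) (X : CSp) (q : V.W → X.pt) (ι : Type) (P : ι → Set X.pt)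
  (n : ι → ℤ) (L : Bd X.pt) (σ : L.ι → X.pt → ℂ) (A : Set X.pt), IsBim V.X X q A →
  IsCart X P n L σ → (∀ y t, q y ∈ P t → y ∈ V.E) →
  ∃ o : Fin V.r → ℤ, ∀ y i, q y ∈ L.U i → Mon V o (fun y' => σ i (q y')) y

/-- (OK) the orders of the pluricanonical forms -/
def StOrdK : Prop := ∀ (V : Lg) (X : CSp) (p : V.W → X.pt) exc (m : ℕ) (L : Bd X.pt)
  (η : L.ι → (Cm 4 → X.pt) → Cm 4 → ℂ), IsNormal 4 X → Res V X p exc → IsCan X m L η →
  ∃ κ : Fin V.r → ℤ, (∀ l ∉ exc, κ l = 0) ∧ (∀ y i (e : Chart 4 V.W), At e y → p y ∈ L.U i →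
    Mon V κ (fun y' => η i (fun w => p (e.symm w)) (e y')) y) ∧
    ∀ y ∉ V.E, ∀ i j (e e' : Chart 4 V.W), At e y → At e' y → p y ∈ L.U i → p y ∈ L.U j →
      η j (fun w => p (e'.symm w)) (e' y) =
        L.g i j (p y) * η i (fun w => p (e.symm w)) (e y) * (jacM e' e y).det ^ m

/-- the first model -/
structure First {X : CSp} {s : ℕ} {Q : Fin s → Set X.pt} (G : GP X Q) (V : Lg) (q : V.W → G.X'.pt)
    (exc : Finset (Fin V.r)) : Prop where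
  res : Res V X (fun y => G.π (q y)) exc
  bim : IsBim V.X G.X' q (G.π ⁻¹' ((fun y => G.π (q y)) '' ⋃ l ∈ exc, V.G l))
  sub : ∀ y t, G.π (q y) ∈ Q t → y ∈ V.E
  sub' : ∀ y u, q y ∈ G.P u → y ∈ V.E

/-- (FIRST) -/
def StFirst : Prop := ∀ (X : CSp) (s : ℕ) (Q : Fin s → Set X.pt) (G : GP X Q), IsNormal 4 X →
  Kah X → ConnectedSpace X.pt → (∀ t, IsPrime X (Q t)) → ∃ (V : Lg) (q : V.W → G.X'.pt)
    (exc : Finset (Fin V.r)) (χ : Chart 4 V.W → Cm 4 → Matrix (Fin 4) (Fin 4) ℂ),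
    First G V q exc ∧ IsKahler χ ∧ ConnectedSpace V.W

/-- (NEX) the orders along the components which are not exceptional -/
def StNex : Prop := ∀ (X : CSp) (s : ℕ) (Q : Fin s → Set X.pt) (G : GP X Q) (C : QC X Q) (V : Lg)
  (q : V.W → G.X'.pt) exc (S : Set X.pt) (S' : Set G.X'.pt), IsNormal 4 X → First G V q exc →
  Divs X Q S → Divs G.X' G.P S' → ∀ (o : Fin s → Fin V.r → ℤ) (ν : Fin G.k → Fin V.r → ℤ),
  (∀ t y i, G.π (q y) ∈ (C.L t).U i → Mon V (o t) (fun y' => C.σ t i (G.π (q y'))) y) →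
  (∀ j y i, q y ∈ (G.N j).U i → Mon V (ν j) (fun y' => G.τ j i (q y')) y) →
  ∀ l ∉ exc, ((∀ t, o t l = 0) ∧ ∀ j, ν j l = 0) ∨
    ∃ t, (∀ t', o t' l = if t' = t then (C.c t : ℤ) else 0) ∧ ∀ j, ν j l = G.n j (.inl t)

end Vale.Agent.P277Z.St
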