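import Vale.Agent.P277Z.St.Sk
import Vale.Agent.P277Z.Val.Sub
import Vale.Agent.P277Z.Val.Jz0
import Vale.Agent.P277Z.Pj.Sk2
import Vale.Agent.P277Z.Glc.RiemN
import Vale.Agent.P277.H622.B1
import Vale.Agent.P277.A.Emb

/-!
# P277: images of components, prime divisors, small maps
-/

set_option linter.all false

open scoped Manifold ContDiff Topology
open Vale.Agent.P277 hiding Amin IsFlipR
open Vale.Agent.P272.K Vale.Agent.P285.H281.FD Set Filter
open Vale.Agent.P277.PH (HolF)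
open Vale.Agent.P277.T3 (ThinM IsAnAt thinM_of_local)
open Vale.Agent.P277Z.Val

noncomputable section

namespace Vale.Agent.P277Z.St

namespace Pr

section an

variable {X : CSp} {S S' : Set X.pt}

theorem an_inter (h : IsAn X univ S) (h' : IsAn X univ S') : IsAn X univ (S ∩ S') := by
  intro x hx
  obtain ⟨k, g, hg, h1⟩ := h x hx
  obtain ⟨k', g', hg', h2⟩ := h' x hx
  refine ⟨k + k', fun i => Sum.elim g g' (finSumFinEquiv.symm i), fun i => ?_, ?_⟩
  · show X.Hol (Sum.elim g g' (finSumFinEquiv.symm i)) x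
    rcases finSumFinEquiv.symm i with j | j
    exacts [hg j, hg' j]
  · filter_upwards [h1, h2] with y g1 g2
    rw [mem_inter_iff, g1, g2, finSumFinEquiv.symm.forall_congr_right
      (q := fun j => Sum.elim g g' j y = 0), Sum.forall]
    rfl

theorem an_union (h : IsAn X univ S) (h' : IsAn X univ S') : IsAn X univ (S ∪ S') := by
  intro x hx
  obtain ⟨k, g, hg, h1⟩ := h x hx
  obtain ⟨k', g', hg', h2⟩ := h' x hx
  refine ⟨k * k', fun i y => g (finProdFinEquiv.symm i).1 y * g' (finProdFinEquiv.symm i).2 y,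
    fun i => hol_mul (hg _) (hg' _), ?_⟩
  filter_upwards [h1, h2] with y g1 g2
  rw [mem_union, g1, g2, finProdFinEquiv.symm.forall_congr_right
    (q := fun j : Fin k × Fin k' => g j.1 y * g' j.2 y = 0)]
  refine ⟨fun e j => mul_eq_zero.2 (e.imp (fun e => e _) fun e => e _), fun e => ?_⟩
  by_contra hc
  push Not at hc
  obtain ⟨⟨i, hi⟩, j, hj⟩ := hc
  exact mul_ne_zero hi hj (e (i, j))

theorem an_empty : IsAn X univ (∅ : Set X.pt) := fun x _ =>
  ⟨1, fun _ _ => 1, fun _ => hol_const 1 x, Eventually.of_forall fun _ => by simp⟩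

theorem an_biUnion {ι : Type} {A : ι → Set X.pt} (s : Finset ι)
    (h : ∀ i ∈ s, IsAn X univ (A i)) : IsAn X univ (⋃ i ∈ s, A i) := by
  classical
  induction s using Finset.induction_on with
  | empty => simpa using an_empty
  | insert a s _ ih =>
    rw [Finset.set_biUnion_insert]
    exact an_union (h a (Finset.mem_insert_self _ _))
      (ih fun i hi => h i (Finset.mem_insert_of_mem hi))

theorem an_iUnion {ι : Type} [Finite ι] {A : ι → Set X.pt} (h : ∀ i, IsAn X univ (A i)) :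
    IsAn X univ (⋃ i, A i) := by
  have := Fintype.ofFinite ι
  simpa using an_biUnion Finset.univ fun i _ => h i

/-- a prime divisor in a finite union of analytic sets -/
theorem prime_sub [Nonempty X.pt] {Q : Set X.pt} (hQ : IsPrime X Q) {ι : Type} {A : ι → Set X.pt}
    (h : ∀ i, IsAn X univ (A i)) (s : Finset ι) (hs : Q ⊆ ⋃ i ∈ s, A i) : ∃ i, Q ⊆ A i := by
  classical
  induction s using Finset.induction_on with
  | empty => exact (hQ.dim' (dimLe_empty.mono (by simpa using hs))).elim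
  | insert a s _ ih =>
    rw [Finset.set_biUnion_insert] at hs
    exact (hQ.irr _ _ (h a) (an_biUnion s fun i _ => h i) hs).elim (fun e => ⟨a, e⟩) ih

end an

section lg

variable {V : Lg} {l : Fin V.r}

theorem thin_G (V : Lg) (l : Fin V.r) : ThinM 4 3 (V.G l) := by
  have : SecondCountableTopology V.W := ChartedSpace.secondCountable_of_sigmaCompact (Cm 4) V.W
  have : Nonempty V.W := ⟨(V.conn l).1.some⟩
  refine thinM_of_local fun y hy => ?_
  obtain ⟨c, ξ, lab, h, h0⟩ := U.exists_ch1 hy 0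
  obtain ⟨Ω, o1, o2, o3⟩ := eventually_nhds_iff.1 h.crd.an.eventually
  refine ⟨_, (h.crd.cont.eventually (o2.mem_nhds o3)).and (h.crd.left.and (h.mem_iff h0)),
    U.thinM_mono (U.thinM_single (g := fun p => ξ (inc 3 p)) (o2.preimage (inc 3).continuous)
      fun p hp => (o1 _ hp).comp ((inc 3).analyticAt p)) ?_⟩
  rintro y' ⟨⟨e1, e2, e3⟩, e4⟩
  have e5 := inc_tl (e3.1 e4)
  exact ⟨tl 3 (c y'), by show inc 3 _ ∈ Ω; rwa [e5], by simp only [e5, e2]⟩

/-- a proper analytic subset of a component is thin -/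
theorem thin_an {Z : Set V.W} (hZ : ∀ y, IsAnAt 4 Z y) (hn : ¬ V.G l ⊆ Z) :
    ThinM 4 2 (V.G l ∩ Z) := by
  have : SecondCountableTopology V.W := ChartedSpace.secondCountable_of_sigmaCompact (Cm 4) V.W
  have : Nonempty V.W := ⟨(V.conn l).1.some⟩
  refine thinM_of_local fun y hy => ?_
  obtain ⟨c, ξ, lab, h, h0⟩ := U.exists_ch1 hy.1 0
  have hy0 := (h.mem_iff h0).self_of_nhds.1 hy.1
  obtain ⟨k, f, h1, h2⟩ := hZ y
  obtain ⟨i, hi⟩ : ∃ i, ¬ ∀ᶠ u in 𝓝 (tl 3 (c y)), f i (ξ (inc 3 u)) = 0 := by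
    by_contra hc
    push Not at hc
    refine hn (U.G_subset (fun y _ => hZ y) hy.1 ?_)
    have h3 := (U.ev_G_iff h h0 (p := fun y' => ∀ i, f i y' = 0)).2
      ((ev_hyp_iff hy0).2 (eventually_all.2 hc))
    filter_upwards [h2, h3] with y' e1 e2 e3 using e1.2 (e2 e3)
  have h3 : AnM 4 (fun u => ξ (inc 3 u)) (tl 3 (c y)) :=
    AnM.comp (γ := ξ) (F := inc 3) (by rw [inc_tl hy0]; exact h.crd.an) ((inc 3).analyticAt _)
  have h4 : AnalyticAt ℂ (fun u => f i (ξ (inc 3 u))) (tl 3 (c y)) :=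
    h3.hol (by rw [inc_tl hy0, h.crd.inv]; exact h1 i)
  obtain ⟨r, hr, hb⟩ := Metric.eventually_nhds_iff_ball.1
    (h3.eventually.and h4.eventually_analyticAt)
  obtain ⟨D, γ, k1, k2, k3⟩ := P277.H622.stB1 2 _ _ Metric.isOpen_ball (fun z hz => (hb z hz).2)
    fun z hz e => hi (by
      filter_upwards [Metric.ball_mem_nhds _ hr] with u hu
      exact AnalyticOnNhd.eqOn_zero_of_preconnected_of_eventuallyEq_zero (fun z hz => (hb z hz).2)
        (convex_ball _ r).isPreconnected hz e hu)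
  refine ⟨_, ((((tl 3).continuous.tendsto _).comp h.crd.cont).eventually
    (Metric.ball_mem_nhds _ hr)).and (h.crd.left.and ((h.mem_iff h0).and h2)),
    D, fun j p => ξ (inc 3 (γ j p)), k1, fun j p hp =>
      AnM.comp (γ := fun u => ξ (inc 3 u)) (hb _ (k2 j p hp).2).1 (k2 j p hp).1, ?_⟩
  rintro y' ⟨⟨e1, e2, e3, e4⟩, e5, e6⟩
  have e7 : ξ (inc 3 (tl 3 (c y'))) = y' := by rw [inc_tl (e3.1 e5), e2]
  obtain ⟨j, p, hp, e8⟩ := mem_iUnion.1 (k3 (show tl 3 (c y') ∈ _ from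
    ⟨e1, by show f i _ = 0; rw [e7]; exact e4.1 e6 i⟩))
  exact mem_iUnion.2 ⟨j, p, hp, by show ξ (inc 3 (γ j p)) = y'; rw [e8, e7]⟩

variable {X : CSp} {q : V.W → X.pt}

theorem dim_img (hq : Pj.HolTo 4 X q) {d : ℕ} {S : Set V.W} (h : ThinM 4 d S) :
    DimLe X d (q '' S) :=
  h.dimLe_image isOpen_univ (subset_univ _) (fun _ _ => hq.cont.continuousAt)
    fun y _ g hg => hq.hol y g hg

theorem anAt_pre (hq : Pj.HolTo 4 X q) {A : Set X.pt} (hA : IsAn X univ A) (y : V.W) :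
    IsAnAt 4 (q ⁻¹' A) y :=
  let ⟨k, g, h1, h2⟩ := hA (q y) trivial
  ⟨k, fun i y => g i (q y), fun i => hq.hol y _ (h1 i), hq.cont.continuousAt.eventually h2⟩

/-- the image of a component is irreducible -/
theorem irr_img (hq : Pj.HolTo 4 X q) (l : Fin V.r) {A B : Set X.pt} (hA : IsAn X univ A)
    (hB : IsAn X univ B) (h : q '' V.G l ⊆ A ∪ B) : q '' V.G l ⊆ A ∨ q '' V.G l ⊆ B := by
  obtain ⟨y, hy⟩ := (V.conn l).1
  have h1 : ∀ b : Bool, IsAn X univ (bif b then A else B) := by rintro (_ | _) <;> assumption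
  obtain ⟨y', h2, b, h3⟩ := (U.exists_ev_of_cover hy (Z := fun b : Bool => q ⁻¹' (bif b then A else B))
    (fun b => (isClosed_of_isAn (h1 b)).preimage hq.cont) (Eventually.of_forall fun z hz =>
      (h ⟨z, hz, rfl⟩).elim (fun e => ⟨true, e⟩) fun e => ⟨false, e⟩)).exists
  have h4 := image_subset_iff.2 (U.G_subset (fun z _ => anAt_pre hq (h1 b) z) h2 h3)
  cases b
  exacts [.inr h4, .inl h4]

variable {p : V.W → X.pt} {exc : Finset (Fin V.r)}

theorem res_hol (h : Res V X p exc) : Pj.HolTo 4 X p := ⟨h.cont, h.hol⟩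

theorem res_prj (hR : Pj.RAP) (h : Res V X p exc) : Pj.GPrj 4 X p :=
  let ⟨P, _, _, h1, h2, _⟩ := h.amp
  @hR 3 V.W _ _ _ V.ch V.mf X p P (res_hol h) h1 h2

theorem res_dense (h : Res V X p exc) {T : Set X.pt} (hT : Dense Tᶜ) : Dense (p ⁻¹' T)ᶜ := by
  intro y
  rw [mem_closure_iff_frequently, ← frequently_frequently_nhds]
  refine (U.freq_notE V y).mono fun y' hy => ?_
  have h1 : y' ∈ (⋃ l ∈ exc, V.G l)ᶜ := fun e => hy (iUnion₂_subset_iUnion _ _ e)
  have h2 := mem_closure_iff_frequently.1 (hT (p y'))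
  rwa [← h.emb.map_nhds h1, frequently_map] at h2

/-- the image of a component at a point which is not exceptional -/
theorem hypAt (h : Res V X p exc) {y : V.W} (hy : y ∈ V.G l) (he : y ∉ ⋃ l ∈ exc, V.G l) :
    HypAt X (p '' V.G l) (p y) := by
  obtain ⟨c, ξ, lab, hc⟩ := U.exists_ch V y
  obtain ⟨h1, h2⟩ := hc.eq l
  have ha : At (chartAt (Cm 4) y) y := ⟨chart_mem_atlas _ _, mem_chart_source _ _⟩
  set e := chartAt (Cm 4) y
  have h0 := h1.self_of_nhds.2 hy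
  have ht : Tendsto e.symm (𝓝 (e y)) (𝓝 y) := (crd_chart ha).tend
  have h3 := ht.eventually (h.emb.isOpen.mem_nhds he)
  refine ⟨fun w => p (e.symm w), e y, fun w => U.eqs c lab l (e.symm w), ⟨h.emb.holAt he ha, _, _, _,
    _, ?_, h.emb.isModel y ha.1, ?_⟩, congrArg p (e.left_inv ha.2), ⟨(h2 e ha).1, ?_, (h2 e ha).2 h0⟩, ?_⟩
  · exact ⟨y, ⟨he, ha.2⟩, congrArg p (e.left_inv ha.2).symm⟩
  · filter_upwards [h3, (crd_chart ha).right] with w e1 e2
    rw [h.emb.inv_apply y e1, e2]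
  · exact (congrArg _ (e.left_inv ha.2)).trans h0
  · filter_upwards [h3, ht.eventually h1] with w e1 e2
    rw [e2]
    exact ⟨fun ⟨y', e3, e4⟩ => h.inj _ y' e1 e4 ▸ e3, fun e3 => ⟨_, e3, rfl⟩⟩

end lg

end Pr

open Pr

/-- (IMG) the image of a component is analytic -/
theorem img_of (h1 : Pj.PRJS) (h2 : Pj.REMG) (V : Lg) (X : CSp) (q : V.W → X.pt)
    (hq : Pj.HolTo 4 X q) (hp : Pj.GPrj 4 X q) (l : Fin V.r) : IsAn X univ (q '' V.G l) := by
  obtain ⟨H, _, _, _, _, hc, hm, ι, k1, k2⟩ := stSub V l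
  obtain ⟨k3, k4⟩ := h1 3 4 H V.W X q ι k1.cont k1.inj k1.holo
  rw [← k2, ← range_comp]
  exact (@h2 2 H _ _ _ hc hm X _ (k3 hq) (k4 hp)).1

/-- a log resolution of a nowhere dense analytic set -/
theorem logres_of (h0 : GH.StRes0) (h1 : GH.StPrin) (h2 : GH.StComp) (h3 : GH.StFam) (X : CSp)
    (hX : IsNormal 4 X) (A : Set X.pt) (hA : IsAn X univ A) (hd : Dense Aᶜ) :
    ∃ (V : Lg) (p : V.W → X.pt) (exc : Finset (Fin V.r)), Res V X p exc ∧ ∀ y, p y ∈ A → y ∈ V.E := by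
  obtain ⟨V, p, k1, -⟩ := h0 X hX
  obtain ⟨I, hI⟩ := h3 V.X (p ⁻¹' A) (H60.Z.isAn_of (anAt_pre (res_hol k1) hA))
  obtain ⟨V', π, exc, k2, k3, -⟩ := h1 V (GH.res_ne k1) 1 (fun _ => I)
    fun _ => hI ▸ res_dense k1 hd
  obtain ⟨exc', k4, -⟩ := h2 V' V X π p exc _ hX k2 k1 fun y hy => (k3 y).2 (.inl hy)
  exact ⟨V', _, exc', k4, fun y hy => (k3 y).2 (.inr ⟨0, hI ▸ hy⟩)⟩

/-- a prime divisor inside the image of the boundary is the image of a component -/
theorem prime_eq {V : Lg} {X : CSp} {p : V.W → X.pt} (hp : Pj.HolTo 4 X p)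
    (ha : ∀ l, IsAn X univ (p '' V.G l)) {Q : Set X.pt} (hQ : IsPrime X Q) (hs : Q ⊆ p '' V.E) :
    ∃ l, Q = p '' V.G l := by
  have := hQ.dim.nonempty
  obtain ⟨l, hl⟩ := prime_sub hQ ha Finset.univ (by simpa [Lg.E, image_iUnion] using hs)
  refine ⟨l, hl.antisymm (image_subset_iff.2 (by_contra fun hn => hQ.dim' ?_))⟩
  refine (dim_img hp (thin_an (anAt_pre hp hQ.an) hn)).mono fun x hx => ?_
  obtain ⟨y, hy, rfl⟩ := hl hx
  exact ⟨y, ⟨hy, hx⟩, rfl⟩

theorem prime_of (h0 : GH.StRes0) (h1 : GH.StPrin) (h2 : GH.StComp) (h3 : GH.StFam)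
    (h4 : Pj.RAP) (h5 : Pj.PRJS) (h6 : Pj.REMG) : StPrime := by
  intro X ι _ Q hX hQ hi
  have := hX.sing.nonempty
  obtain ⟨V, p, exc, hr, hE⟩ := logres_of h0 h1 h2 h3 X hX _ (an_iUnion fun t => (hQ t).an)
    (dense_compl_of_dimLe (by norm_num) hX.dense (dimLe_iUnion fun t => (hQ t).dim))
  have ha := img_of h5 h6 V X p (res_hol hr) (res_prj h4 hr)
  choose l hl using fun t => prime_eq (res_hol hr) ha (hQ t) fun x hx => by
    obtain ⟨y, rfl⟩ := hr.surj x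
    exact ⟨y, hE y (mem_iUnion.2 ⟨t, hx⟩), rfl⟩
  refine ⟨(p '' ⋃ l ∈ exc, V.G l) ∪ ⋃ a : {a : Fin V.r × Fin V.r // a.1 ≠ a.2},
    p '' V.G a.1.1 ∩ p '' V.G a.1.2, fun t => (hQ t).an,
    an_union hr.an (an_iUnion fun a => an_inter (ha _) (ha _)),
    hr.dim.union (dimLe_iUnion fun a => ?_), fun t x hx hS => ⟨?_, fun t' ht hx' => ?_⟩⟩
  · refine (hr.dim.union (dim_img (res_hol hr) (U.thin_inter a.2))).mono ?_
    rintro _ ⟨⟨y, hy, rfl⟩, y', hy', e⟩
    by_cases he : y ∈ ⋃ l ∈ exc, V.G l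
    · exact .inl ⟨y, he, rfl⟩
    · exact .inr ⟨y, ⟨hy, hr.inj y y' he e ▸ hy'⟩, rfl⟩
  · rw [hl t] at hx ⊢
    obtain ⟨y, hy, rfl⟩ := hx
    exact hypAt hr hy fun he => hS (.inl ⟨y, he, rfl⟩)
  · refine hS (.inr (mem_iUnion.2 ⟨⟨(l t, l t'), fun e => ht (hi ?_)⟩, hl t ▸ hx, hl t' ▸ hx'⟩))
    rw [hl t, hl t']
    exact congrArg (fun k => p '' V.G k) e.symm

namespace Pr

variable {X Z : CSp} {f : X.pt → Z.pt}

theorem small_one (h0 : GH.StRes0) (h1 : GH.StDom) (h4 : Pj.RAP) (h5 : Pj.PRJS) (h6 : Pj.REMG)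
    (h7 : Pj.PRJC) {P : Bd X.pt} (hX : IsNormal 4 X) (hZ : IsNormal 4 Z) (h : Small X Z f)
    (hP : IsLBx X P) (ha : RelAmple X Z f P) : ∃ A, IsSmall X Z f A ∧ DimLe Z 2 A := by
  have := hX.sing.nonempty
  obtain ⟨A₀, hb⟩ := h.bim
  obtain ⟨V₀, p, k0, -⟩ := h0 Z hZ
  obtain ⟨V, π, q, -, exc, -, -, hr, k1, k2, -, k3⟩ := h1 Z X f A₀ P hZ hX hb hP ha V₀ p _ k0
  have hq : Pj.HolTo 4 X q := ⟨k3.cont, fun y g hg => (k1 y).2 g hg⟩
  have hsurj : ∀ x, ∃ y : V.W, q y = x := k3.surj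
  have hp : Pj.GPrj 4 X q := @h7 3 V.W _ _ _ V.ch V.mf Z X q f hq
    (fun x => ⟨hb.cont.continuousAt, hb.holo x⟩) (by rw [funext k2]; exact res_prj h4 hr)
  have hc := isClosed_of_isAn hr.an
  have hinj : ∀ x x', f x ∉ (fun y => p (π y)) '' ⋃ l ∈ exc, V.G l → f x' = f x → x' = x := by
    intro x x' hx e
    obtain ⟨y, rfl⟩ := hsurj x
    obtain ⟨y', rfl⟩ := hsurj x'
    rw [k2] at hx
    rw [k2, k2] at e
    rw [hr.inj y y' (fun he => hx ⟨y, he, rfl⟩) e]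
  refine ⟨_, ⟨hb.cont, hb.holo, hb.surj, hr.an, ?_, hinj, fun x g hx hg => ?_⟩, hr.dim⟩
  · refine (dimLe_biUnion (I := (exc : Set (Fin V.r))) (T := fun l => q '' V.G l)
      exc.countable_toSet fun l hl => by_contra fun hn => ?_).mono fun x hx => ?_
    · refine h.small _ ⟨img_of h5 h6 V X q hq hp l, fun A B => irr_img hq l,
        dim_img hq (thin_G V l), hn⟩ (hr.dim.mono ?_)
      rintro _ ⟨_, ⟨y, hy, rfl⟩, rfl⟩
      exact ⟨y, mem_iUnion₂.2 ⟨l, hl, hy⟩, (k2 y).symm⟩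
    · obtain ⟨y, rfl⟩ := hsurj x
      obtain ⟨y', hy', e⟩ := hx
      have he : y ∈ ⋃ l ∈ exc, V.G l := by_contra fun he =>
        he (hr.inj y y' he (e.trans (k2 y)) ▸ hy')
      obtain ⟨l, hl, hy⟩ := mem_iUnion₂.1 he
      exact mem_iUnion₂.2 ⟨l, hl, y, hy, rfl⟩
  · have hs : ∀ᶠ x' in 𝓝 x, Function.surjInv hb.surj (f x') = x' := by
      filter_upwards [hb.cont.continuousAt.eventually (hc.isOpen_compl.mem_nhds hx)] with x' hx'
      exact hinj x' _ hx' (Function.surjInv_eq _ _)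
    refine ⟨g ∘ Function.surjInv hb.surj, ?_, hs.mono fun x' e => (congrArg g e).symm⟩
    obtain ⟨y, rfl⟩ := hsurj x
    have hat : At (chartAt (Cm 4) y) y := ⟨chart_mem_atlas _ _, mem_chart_source _ _⟩
    rw [k2] at hx ⊢
    refine (hr.emb.hol y (fun he => hx ⟨y, he, rfl⟩) _ hat _).2 ((hq.hol y g hg _ hat).congr ?_)
    filter_upwards [(crd_chart hat).tend.eventually (hq.cont.continuousAt.eventually hs)] with w e
    show g _ = g (Function.surjInv hb.surj (p (π _)))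
    rw [← k2, e]

theorem small_union {A A' : Set Z.pt} (h : IsSmall X Z f A) (h1 : IsAn Z univ A')
    (h2 : DimLe Z 2 A') : IsSmall X Z f (A ∪ A') :=
  ⟨h.cont, h.holo, h.surj, an_union h.an h1, (h.dim.union (h.dimLe_preimage h2)).mono fun x hx =>
    (em (f x ∈ A)).imp id fun e => ⟨hx.resolve_left e, e⟩,
    fun x x' hx => h.inj x x' fun e => hx (.inl e), fun x g hx => h.iso x g fun e => hx (.inl e)⟩

theorem not_inj (hZ : IsNormal 4 Z) (h : Small X Z f) {A : Set Z.pt} (hs : IsSmall X Z f A)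
    (hd : DimLe Z 2 A) : ¬ Function.Injective f := by
  intro hi
  have h1 : ∀ x, hs.sec (f x) = x := fun x => hi (hs.sec_eq _)
  have hc : Continuous hs.sec := by
    rw [(hs.cont.isClosedMap.isQuotientMap hs.cont hs.surj).continuous_iff]
    exact continuous_id.congr fun x => (h1 x).symm
  refine h.niso ⟨hi, fun x g hg => ⟨g ∘ hs.sec, ?_,
    Eventually.of_forall fun x' => (congrArg g (h1 x')).symm⟩⟩
  refine Glc.hol_of_cont hZ ((isOpen_hol g).preimage hc) (hs.an.mono (subset_univ _))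
    (fun z _ => dense_compl_of_dimLe (by norm_num) hZ.dense hd z)
    (fun z hz => (hs.holMap_sec hz.2).2 g hz.1)
    (fun z hz => ((hol_continuousAt hz).comp hc.continuousAt).continuousWithinAt) ?_
  show X.Hol g (hs.sec (f x))
  rwa [h1]

end Pr

theorem small_of (h0 : GH.StRes0) (h1 : GH.StDom) (h4 : Pj.RAP) (h5 : Pj.PRJS) (h6 : Pj.REMG)
    (h7 : Pj.PRJC) : StSmall := by
  intro X Z X' f f' P P' hX hZ hX' h h' hP ha hP' ha'
  obtain ⟨A, k1, k2⟩ := small_one h0 h1 h4 h5 h6 h7 hX hZ h hP ha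
  obtain ⟨A', k3, k4⟩ := small_one h0 h1 h4 h5 h6 h7 hX' hZ h' hP' ha'
  exact ⟨⟨A ∪ A', small_union k1 k3.an k4, union_comm A' A ▸ small_union k3 k1.an k2⟩,
    not_inj hZ h k1 k2, not_inj hZ h' k3 k4⟩

end Vale.Agent.P277Z.St
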