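import Mathlib

/-!
# P277: openness of a cone given by generators and relations
-/

open Set

namespace Vale.Agent.P277Z.St.Op

/-- rational points with a common denominator are dense -/
theorem exists_rat {b : ℕ} {T : Set (Fin b → ℝ)} (hT : IsOpen T) {y : Fin b → ℝ} (hy : y ∈ T) :
    ∃ (D : ℕ) (m : Fin b → ℤ), 1 ≤ D ∧ (fun β => (m β : ℝ) / D) ∈ T := by
  obtain ⟨δ, hδ, h⟩ := Metric.isOpen_iff.1 hT y hy
  obtain ⟨D, hD⟩ := exists_nat_one_div_lt hδ
  have hp : (0 : ℝ) < D + 1 := by positivity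
  refine ⟨D + 1, fun β => ⌊((D : ℝ) + 1) * y β⌋, Nat.le_add_left _ _,
    h ((dist_pi_lt_iff hδ).2 fun β => lt_of_le_of_lt ?_ hD)⟩
  have h1 := Int.floor_le (((D : ℝ) + 1) * y β)
  have h2 := Int.lt_floor_add_one (((D : ℝ) + 1) * y β)
  rw [Real.dist_eq, Nat.cast_add_one, div_sub' hp.ne', abs_div, abs_of_pos hp]
  refine div_le_div_of_nonneg_right (abs_le.2 ⟨?_, ?_⟩) hp.le <;> linarith

theorem cone_open {k q b : ℕ} (P : (Fin k → ℤ) × (Fin (q + 1) → ℤ) → Prop)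
    (hadd : ∀ v w, P v → P w → P (v + w)) (hdiv : ∀ (j : ℕ) v, 1 ≤ j → P (j • v) → P v)
    (n : Fin b → Fin k → ℤ) (ν : Fin b → Fin (q + 1) → ℤ) (y : Fin b → ℝ)
    (htr : ∀ β (c : ℤ) v, P v → P (v + c • (n β, -ν β))) (hA : ∀ a, P (0, Pi.single a 1))
    (hfr : ∀ v, ∃ m : ℕ, P (v + m • (0, Pi.single 0 1))) (hx : ∀ a, 0 < ∑ β, y β * ν β a) :
    ∃ ε > 0, ∀ (r : Fin k → ℤ) (d : ℕ), 1 ≤ d →
      (∀ e, |(r e : ℝ) / d - ∑ β, y β * n β e| < ε) → P (r, 0) := by
  let C : AddSubmonoid ((Fin k → ℤ) × (Fin (q + 1) → ℤ)) :=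
    { carrier := {v | ∀ w, P w → P (w + v)}
      zero_mem' := fun w hw => by rwa [add_zero]
      add_mem' := fun {u v} hu hv w hw => by
        rw [← add_assoc]
        exact hv _ (hu w hw) }
  have hC : ∀ v, P v → v ∈ C := fun v hv w hw => hadd w v hw hv
  have hA1 : ∀ a (t : ℤ), 0 ≤ t → ((0, Pi.single a t) : _ × _) ∈ C := fun a t ht => by
    obtain ⟨t, rfl⟩ := Int.eq_ofNat_of_zero_le ht
    have h := C.nsmul_mem (hC _ (hA a)) t
    rwa [Prod.smul_mk, smul_zero, ← Pi.single_smul', nsmul_one] at h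
  have hA2 : ∀ u : Fin (q + 1) → ℤ, (∀ a, 0 ≤ u a) → ((0, u) : _ × _) ∈ C := fun u hu => by
    have h := C.sum_mem (t := Finset.univ) fun a _ => hA1 a _ (hu a)
    rwa [← prod_mk_sum, Finset.sum_const_zero, Finset.univ_sum_single] at h
  have hB : ∀ e (σ : ℤ), ∃ m : ℕ, ∀ (c : ℕ) (t : ℤ), m * c ≤ t →
      ((Pi.single e (σ * c), Pi.single 0 t) : _ × _) ∈ C := fun e σ => by
    obtain ⟨m, hm⟩ := hfr (Pi.single e σ, 0)
    refine ⟨m, fun c t ht => ?_⟩
    have h := C.add_mem (C.nsmul_mem (hC _ hm) c) (hA1 0 _ (sub_nonneg.2 ht))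
    have e1 : c • (((Pi.single e σ, 0) : (Fin k → ℤ) × (Fin (q + 1) → ℤ)) +
        m • (0, Pi.single 0 1)) + (0, Pi.single 0 (t - m * c)) =
        (Pi.single e (σ * c), Pi.single 0 t) := by
      refine Prod.ext (funext fun e' => ?_) (funext fun a => ?_)
      · by_cases he : e' = e <;> simp [he, mul_comm]
      · by_cases ha : a = 0 <;> simp [ha, mul_comm]
    rwa [e1] at h
  have hB1 : ∀ e, ∃ M : ℕ, ∀ c : ℤ, ((Pi.single e c, Pi.single 0 (M * |c|)) : _ × _) ∈ C := by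
    intro e
    obtain ⟨m, hm⟩ := hB e 1
    obtain ⟨m', hm'⟩ := hB e (-1)
    refine ⟨m + m', fun c => ?_⟩
    rcases Int.eq_nat_or_neg c with ⟨c, rfl | rfl⟩
    · have h := hm c (((m + m' : ℕ) : ℤ) * c)
        (mul_le_mul_of_nonneg_right (Nat.cast_le.2 (Nat.le_add_right _ _)) c.cast_nonneg)
      rw [one_mul] at h
      rwa [Nat.abs_cast]
    · have h := hm' c (((m + m' : ℕ) : ℤ) * c)
        (mul_le_mul_of_nonneg_right (Nat.cast_le.2 (Nat.le_add_left _ _)) c.cast_nonneg)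
      rw [neg_one_mul] at h
      rwa [abs_neg, Nat.abs_cast]
  choose M hM using hB1
  have hT : IsOpen {y' : Fin b → ℝ | (∀ a, 0 < ∑ β, y' β * ν β a) ∧
      ∑ e, M e * |∑ β, y β * n β e - ∑ β, y' β * n β e| < ∑ β, y' β * ν β 0} := by
    rw [ofPred_and, ofPred_forall]
    exact (isOpen_iInter_of_finite fun a => isOpen_lt continuous_const (by fun_prop)).inter
      (isOpen_lt (by fun_prop) (by fun_prop))
  obtain ⟨D, m, hD, h1, h2⟩ := exists_rat hT (y := y) ⟨hx, by simpa using hx 0⟩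
  have hT' : IsOpen {r : Fin k → ℝ |
      ∑ e, M e * |r e - ∑ β, (m β : ℝ) / D * n β e| < ∑ β, (m β : ℝ) / D * ν β 0} :=
    isOpen_lt (by fun_prop) continuous_const
  obtain ⟨ε, hε, h3⟩ := Metric.isOpen_iff.1 hT' (fun e => ∑ β, y β * n β e) h2
  refine ⟨ε, hε, fun r d hd hr => hdiv D _ hD ?_⟩
  have h4 := h3 ((dist_pi_lt_iff (f := fun e => (r e : ℝ) / d) hε).2 hr)
  have hD' : (0 : ℝ) < D := Nat.cast_pos.2 hD
  have hd' : (0 : ℝ) < d := Nat.cast_pos.2 hd
  set w : Fin k → ℤ := D • r - ∑ β, (d * m β) • n β with hw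
  set u : Fin (q + 1) → ℤ := ∑ β, (d * m β) • ν β with hu
  have hw' : ∀ e, (w e : ℝ) = D * d * ((r e : ℝ) / d - ∑ β, (m β : ℝ) / D * n β e) := fun e => by
    simp only [hw, Pi.sub_apply, Finset.sum_apply, Pi.smul_apply, smul_eq_mul, nsmul_eq_mul,
      mul_sub, Finset.mul_sum, Pi.mul_apply, Pi.natCast_apply]
    push_cast
    refine congrArg₂ _ ?_ (Finset.sum_congr rfl fun β _ => ?_) <;> field_simp
  have hu' : ∀ a, (u a : ℝ) = D * d * ∑ β, (m β : ℝ) / D * ν β a := fun a => by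
    simp only [hu, Finset.sum_apply, Pi.smul_apply, smul_eq_mul, Finset.mul_sum]
    push_cast
    refine Finset.sum_congr rfl fun β _ => ?_
    field_simp
  have h5 : ∑ e, M e * |w e| < u 0 := by
    have h6 : ((∑ e, M e * |w e| : ℤ) : ℝ) < u 0 := by
      push_cast
      simp only [hw', hu', abs_mul, abs_of_pos hD', abs_of_pos hd', mul_left_comm (M _ : ℝ),
        ← Finset.mul_sum]
      exact mul_lt_mul_of_pos_left h4 (mul_pos hD' hd')
    exact_mod_cast h6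
  have k1 := C.sum_mem (t := Finset.univ) fun e _ => hM e (w e)
  have k2 := C.sum_mem (t := Finset.univ) fun β _ =>
    show ((d * m β : ℤ) • (n β, -ν β)) ∈ C from fun v => htr β _ v
  have k3 := hA2 (u - Pi.single 0 (∑ e, M e * |w e| + 1)) fun a => by
    by_cases ha : a = 0
    · rw [ha, Pi.sub_apply, Pi.single_eq_same]
      omega
    · rw [Pi.sub_apply, Pi.single_eq_of_ne ha, sub_zero]
      have h6 : (0 : ℝ) ≤ u a := by
        rw [hu']
        exact (mul_pos (mul_pos hD' hd') (h1 a)).le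
      exact_mod_cast h6
  have k4 := C.add_mem (C.add_mem k1 k2) k3 _ (hA 0)
  have e1 : ((0, Pi.single 0 1) : (Fin k → ℤ) × (Fin (q + 1) → ℤ)) +
      (∑ e, (Pi.single e (w e), Pi.single 0 (M e * |w e|)) + ∑ β, (d * m β : ℤ) • (n β, -ν β) +
        (0, u - Pi.single 0 (∑ e, M e * |w e| + 1))) = D • (r, 0) := by
    simp only [Prod.smul_mk, ← prod_mk_sum, Finset.univ_sum_single, Prod.mk_add_mk, smul_neg,
      Finset.sum_neg_distrib, ← hu, smul_zero]
    refine Prod.ext (by simp [hw]) (funext fun a => ?_)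
    by_cases ha : a = 0
    · simp [ha]
      ring
    · simp [ha]
  rwa [e1] at k4

end Vale.Agent.P277Z.St.Op
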