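import Vale.Agent.P277Z.St.OpenB
import Vale.Agent.P277Z.St.OpenC
import Vale.Agent.P277Z.St.Sk

/-!
# P277: relative ampleness is an open condition
-/

open scoped Topology
open Vale.Agent.P277
open Vale.Agent.P272.K Vale.Agent.P285.H281.FD Set Filter

noncomputable section

namespace Vale.Agent.P277Z.St

namespace Op

variable {X : CSp} {k k' : ℕ} {L : Fin k → Bd X.pt} {A : Fin k' → Bd X.pt}

theorem lin_add (hL : ∀ e, IsLBx X (L e)) (n n' : Fin k → ℤ) {i j : ∀ e, (L e).ι} {x : X.pt}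
    (hi : ∀ e, x ∈ (L e).U (i e)) (hj : ∀ e, x ∈ (L e).U (j e)) :
    (HD.Bd.lin L (n + n')).g i j x = (HD.Bd.lin L n).g i j x * (HD.Bd.lin L n').g i j x := by
  show ∏ e, (L e).g (i e) (j e) x ^ (n e + n' e) =
    (∏ e, (L e).g (i e) (j e) x ^ n e) * ∏ e, (L e).g (i e) (j e) x ^ n' e
  rw [← Finset.prod_mul_distrib]
  exact Finset.prod_congr rfl fun e _ => zpow_add₀ ((hL e).ne_zero _ _ x (hi e) (hj e)) _ _

/-- the integral combinations of two families of line bundles -/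
def sys (hL : ∀ e, IsLBx X (L e)) (hA : ∀ a, IsLBx X (A a)) :
    Sys X ((Fin k → ℤ) × (Fin k' → ℤ)) where
  ι := (∀ e, (L e).ι) × ∀ a, (A a).ι
  U := ((HD.Bd.lin L 0).mul (HD.Bd.lin A 0)).U
  g v := ((HD.Bd.lin L v.1).mul (HD.Bd.lin A v.2)).g
  lb v := lb_mul (Glc.lb_lin hL v.1) (Glc.lb_lin hA v.2)
  add v w i j x hi hj := by
    show (HD.Bd.lin L (v.1 + w.1)).g i.1 j.1 x * (HD.Bd.lin A (v.2 + w.2)).g i.2 j.2 x = _
    rw [lin_add hL _ _ hi.1 hj.1, lin_add hA _ _ hi.2 hj.2]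
    exact mul_mul_mul_comm _ _ _ _

end Op

open Op in
/-- (OPEN) -/
theorem open_of (h0 : GH.StRes0) (h1 : Val.StAmpC) (h2 : Val.StAn) (h3 : Pj.RAP)
    (h4 : Pj.GENPT) : StOpen := by
  rintro X Z f k L ρ hX hf hL ⟨q, A, x, hA, b, n, ν, y, ht, hρ, hx⟩
  have hfc : Continuous f := continuous_iff_continuousAt.2 fun x => (hf x).1
  let S := sys hL fun a => (hA a).2.1
  have ha : ∀ a, RelAmple X Z f (S.B (0, Pi.single a 1)) := fun a => by
    refine (relAmple_refine (hA a).2.1 (S.lb _) hfc (fun J => J.2 a) (fun J x hx => hx.2 a)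
      fun J J' x _ _ => ?_).1 (hA a).2.2
    show (∏ e, (L e).g (J.1 e) (J'.1 e) x ^ (0 : ℤ)) *
      ∏ a', (A a').g (J.2 a') (J'.2 a') x ^ (Pi.single a 1 : Fin (q + 1) → ℤ) a' = _
    rw [Finset.prod_eq_single a (fun a' _ h => by rw [Pi.single_eq_of_ne h, zpow_zero])
      fun h => absurd (Finset.mem_univ a) h]
    simp only [zpow_zero, Finset.prod_const_one, one_mul, Pi.single_eq_same, zpow_one]
  have ht' : ∀ β, HD.IsTriv X (S.B (n β, -ν β)) := fun β => by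
    obtain ⟨s, hs, hs'⟩ := ht β
    refine ⟨s, ⟨hs.holo, fun i j x hx hi hj => (hs.change i j x hx hi hj).trans ?_⟩, hs'⟩
    show (HD.Bd.lin L (n β)).g i.1 j.1 x * (∏ a, (A a).g (i.2 a) (j.2 a) x ^ ν β a)⁻¹ * s j x =
      (HD.Bd.lin L (n β)).g i.1 j.1 x * (∏ a, (A a).g (i.2 a) (j.2 a) x ^ (-ν β a)) * s j x
    simp only [zpow_neg, Finset.prod_inv_distrib]
  obtain ⟨ε, hε, h⟩ := cone_open (fun v => RelAmple X Z f (S.B v))
    (fun _ _ => Sys.amp_add hfc) (fun _ _ => Sys.amp_div) n ν y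
    (fun β c _ => Sys.amp_triv hfc (ht' β) c) ha
    (fun v => Sys.amp_twist h0 h1 h2 h3 h4 hX hf v (ha 0)) fun a => hx a ▸ (hA a).1
  refine ⟨ε, hε, fun r d hd hr => (relAmple_refine (Glc.lb_lin hL r) (S.lb (r, 0)) hfc Prod.fst
    (fun J x hx => hx.1) fun J J' x _ _ => ?_).2 (h r d hd fun e => hρ e ▸ hr e)⟩
  show (HD.Bd.lin L r).g J.1 J'.1 x * ∏ a, (A a).g (J.2 a) (J'.2 a) x ^ (0 : ℤ) = _
  simp only [zpow_zero, Finset.prod_const_one, mul_one]

end Vale.Agent.P277Z.St
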