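import Vale.Agent.P277Z.St.Bas

/-!
# P277: the top statement follows from the statement on one model
-/

open scoped Manifold ContDiff Topology ComplexOrder
open Vale.Agent.P277 hiding Amin IsFlipR
open Vale.Agent.P272.K Vale.Agent.P285.H281.FD Vale.Agent.P277.HD Set Filter
open Vale.Agent.P277.PH (HolF)
open Vale.Agent.P277Z.Val

noncomputable section

namespace Vale.Agent.P277Z.St

theorem cmp_of {V : Lg} {X X' : CSp} (p : V.W → X.pt) (q : V.W → X'.pt) {k h k' : ℕ}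
    (L : Fin k → Bd X.pt) (N : Fin h → Bd X'.pt) (F : ∀ e, (L e).ι → Chart 4 V.W → V.W → ℂ)
    (O : Fin k → Fin V.r → ℤ) (J : Fin k → ℕ) (τ : ∀ j, (N j).ι → V.W → ℂ)
    (o : Fin h → Fin V.r → ℤ)
    (hF : ∀ e y i ch, At ch y → p y ∈ (L e).U i → Mon V (O e) (F e i ch) y)
    (hF' : ∀ e, ∀ y ∉ V.E, ∀ i i₁ ch ch₁, At ch y → At ch₁ y → p y ∈ (L e).U i →
      p y ∈ (L e).U i₁ →
      F e i₁ ch₁ y = (L e).g i i₁ (p y) * F e i ch y * (jacM ch₁ ch y).det ^ J e)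
    (hτ : ∀ j y i, q y ∈ (N j).U i → Mon V (o j) (τ j i) y)
    (hτ' : ∀ j, ∀ y ∉ V.E, ∀ i i₁, q y ∈ (N j).U i → q y ∈ (N j).U i₁ →
      τ j i₁ y = (N j).g i₁ i (q y) * τ j i y)
    (B : Fin k' → Fin k → ℤ) (m : Fin k' → ℕ) (ν : Fin k' → Fin h → ℕ) (c : ℕ)
    (hB : ∀ a (d : ℂ), ∏ e, (d ^ J e) ^ B a e = (d ^ m a) ^ c) :
    ∃ t, T2.IsCmpV p (fun a => HD.Bd.lin L (B a)) (fun a => (((Bd.can 4 V.W).pow (m a)).mul
      (HD.Bd.lin (fun j => pull q (N j)) fun j => ν a j)).pow c) V.G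
      (fun a => (∑ e, fun l => B a e * O e l) + ∑ j, fun l => ((ν a j * c : ℕ) : ℤ) * o j l) t := by
  refine ⟨fun a i j y => (∏ e, F e (i e) j.1 y ^ B a e) *
    ∏ b, τ b (j.2 b) y ^ ((ν a b * c : ℕ) : ℤ), fun y => ?_, fun y a i i₁ j j₁ hy h1 h2 h3 h4 => ?_⟩
  · obtain ⟨ζ, hζ⟩ := V.exEq y
    refine ⟨ζ, hζ, fun a i j hi hj => ?_⟩
    obtain ⟨u, a1, a2, a3⟩ := (Mon.prod Finset.univ fun e => (hF e y (i e) j.1 hj.1 (hi e)).zpow
      (B a e)).mul (Mon.prod Finset.univ fun b => (hτ b y (j.2 b) (hj.2 b)).zpow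
        ((ν a b * c : ℕ) : ℤ)) ζ hζ
    exact ⟨u, a2, a1, a3⟩
  · show _ = (∏ e, (L e).g (i e) (i₁ e) (p y) ^ B a e) * _ * ((jacM j₁.1 j.1 y).det ^ m a *
      ∏ b, (N b).g (j₁.2 b) (j.2 b) (q y) ^ (ν a b : ℤ)) ^ c
    simp only [fun e => hF' e y hy (i e) (i₁ e) j.1 j₁.1 h3.1 h4.1 (h1 e) (h2 e),
      fun b => hτ' b y hy (j.2 b) (j₁.2 b) (h3.2 b) (h4.2 b), mul_zpow, Finset.prod_mul_distrib,
      hB, mul_pow, zpow_natCast, ← Finset.prod_pow, ← pow_mul]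
    ring

theorem top_of {S : ℝ → Prop} (hM : MOD S) (hP : StPrime) (hS : StSmall) (hO : StOpen)
    (hF : StFirst) (hNef : GH.StNef) : TOP S := by
  intro X Z f f' s Q G hc hN hK hQ hi ⟨C₀, hC₀⟩ hf
  choose C' _ using fun i => (hf i).ample'
  let C : ∀ i, QC (X i) (Q i) := fun i => Nat.casesOn i C₀ C'
  choose T hT using fun i => hP (X i) _ (Q i) (hN i) (hQ i) (hi i)
  choose A hA using fun i => (hf i).isFlipR hS hO (hN i) (hN (i + 1)) (hT i) (hT (i + 1)) (C i)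
    (C (i + 1))
  obtain ⟨k, x, m, β, ν, hx, h1, h2, h3⟩ := exists_gen G.b_nonneg (μ := fun j => G.μ j / G.r j)
    fun j => div_nonneg (G.μ_nonneg j) (Nat.cast_nonneg _)
  let R : Fin k → Fin (s + 1) → ℤ := fun a =>
    Fin.cons (m a) fun t => β a t + ∑ j, ν a j * G.n j (.inl t)
  have hd : ∀ t, ∑ a, x a * R a t.succ = G.d t := fun t => by
    simp only [R, Fin.cons_succ, GP.d, ← h2 t, ← div_mul_eq_mul_div, ← h3, Finset.sum_mul]
    rw [Finset.sum_comm, ← Finset.sum_add_distrib]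
    refine Finset.sum_congr rfl fun a _ => ?_
    push_cast
    simp only [mul_add, Finset.mul_sum, mul_assoc]
  have hR : (fun e => ∑ a, x a * R a e) = (Fin.cons 1 G.d : Fin (s + 1) → ℝ) :=
    funext (Fin.cases (by simpa [R] using h1) hd)
  let U : Glc.Seq k x := ⟨X, Z, f, f', A, fun i => regenZ R (C i).fam (C i).idx,
    fun i _ => ∏ e, (C i).idx e,
    fun i _ => Finset.one_le_prod' fun e _ => (C i).idx_pos e, fun i => regenZ_flip _ _ R x _ _ _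
      _ _ _ _ _ _ _ (C i).idx_pos (C (i + 1)).idx_pos (hR ▸ hA i)⟩
  obtain ⟨V, q, exc, χ, hV, hχ, hc'⟩ := hF _ s _ G (hN 0) (hK 0) hc (hQ 0)
  obtain ⟨T', hT'⟩ := hP G.X' _ G.P G.normal G.prime G.inj
  obtain ⟨κ, κ0, κ1, κ2⟩ := ordK V _ _ exc _ _ _ (hN 0) hV.res C₀.can
  have bp := Fst.isBim_lift (q := fun y => G.π (q y)) (g := id) hV.res (Fst.holMap hV.res)
    hV.res.surj fun _ => ⟨continuousAt_id, fun _ h => h⟩
  choose o ho using fun t => ordC V _ _ _ _ _ _ _ _ bp (C₀.cart t) hV.sub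
  choose ν' hν using fun j => ordC V _ _ _ _ _ _ _ _ hV.bim (G.cart j) hV.sub'
  have hn := fun a => hNef V.W χ G.X' q G.k G.N (ν a) hχ
    (fun y => ⟨hV.bim.cont.continuousAt, hV.bim.holo y⟩) (Fst.bim_dense hV.bim G.normal.dense)
    (fun j => (G.cart j).lb) G.nef
  have nq : ∀ y ∉ V.E, G.π (q y) ∈ (⋃ t, Q 0 t)ᶜ := fun y hy h =>
    let ⟨t, ht⟩ := mem_iUnion.1 h; hy (hV.sub y t ht)
  have np : ∀ y ∉ V.E, q y ∈ (⋃ u, G.P u)ᶜ := fun y hy h =>
    let ⟨t, ht⟩ := mem_iUnion.1 h; hy (hV.sub' y t ht)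
  set c := ∏ e, C₀.idx e with hc₀
  have dv : ∀ e, C₀.idx e * (c / C₀.idx e) = c := fun e =>
    Nat.mul_div_cancel' (Finset.dvd_prod_of_mem _ (Finset.mem_univ e))
  let O : Fin (s + 1) → Fin V.r → ℤ := Fin.cons κ fun t l => -1 * o t l
  have cmp := cmp_of (fun y => G.π (q y)) q C₀.fam G.N
    (Fin.cases (fun i ch y => C₀.η i (fun w => G.π (q (ch.symm w))) (ch y))
      fun t i _ y => C₀.σ t i (G.π (q y)) ^ (-1 : ℤ))
    O (Fin.cases C₀.m fun _ => 0) (fun j i y => G.τ j i (q y)) ν'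
    (Fin.cases (fun y i ch a b => κ1 y i ch a b) fun t y i _ _ b => (ho t y i b).zpow (-1))
    (Fin.cases (fun y hy i i₁ ch ch₁ => κ2 y hy i i₁ ch ch₁) fun t y hy i i₁ _ _ _ _ a b => by
      show C₀.σ t i₁ _ ^ (-1 : ℤ) = (C₀.L t).g i i₁ _ * C₀.σ t i _ ^ (-1 : ℤ) * _ ^ 0
      rw [(C₀.cart t).sec.change i i₁ _ (nq y hy) a b, pow_zero, mul_one, zpow_neg_one,
        zpow_neg_one, mul_inv, mul_inv_cancel_left₀ ((C₀.cart t).lb.ne_zero _ _ _ a b)])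
    hν (fun j y hy i i₁ a b => (G.cart j).sec.change i₁ i _ (np y hy) b a)
    (fun a e => R a e * ((c / C₀.idx e : ℕ) : ℤ)) m ν c fun a d => by
      rw [Fin.prod_univ_succ]
      show (d ^ C₀.m) ^ ((m a : ℤ) * ((c / C₀.m : ℕ) : ℤ)) * ∏ _ : Fin s, (d ^ 0) ^ _ = _
      simp only [pow_zero, one_zpow, Finset.prod_const_one, mul_one]
      rw [← Nat.cast_mul, zpow_natCast, ← pow_mul, ← pow_mul, mul_left_comm]
      exact congrArg (fun n => d ^ (m a * n)) (dv 0)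
  have c0 : (c : ℝ) ≠ 0 := Nat.cast_ne_zero.2 (Finset.prod_ne_zero_iff.2 fun e _ =>
    Nat.one_le_iff_ne_zero.1 (C₀.idx_pos e))
  have dv' : ∀ e, ((c / C₀.idx e : ℕ) : ℝ) = c / C₀.idx e := fun e =>
    Nat.cast_div (Finset.dvd_prod_of_mem _ (Finset.mem_univ e))
      (Nat.cast_ne_zero.2 (Nat.one_le_iff_ne_zero.1 (C₀.idx_pos e)))
  have key : ∀ l, -disc x (fun _ => c) (fun a => (∑ e, fun l => R a e * ((c / C₀.idx e : ℕ) : ℤ) *
      O e l) + ∑ j, fun l => ((ν a j * c : ℕ) : ℤ) * ν' j l) l =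
      -(κ l : ℝ) / C₀.m + ∑ t, G.d t * o t l / C₀.c t - ∑ j, G.μ j * ν' j l / G.r j := fun l => by
    have e1 : ∑ e, (∑ a, x a * R a e) * O e l / C₀.idx e =
        (κ l : ℝ) / C₀.m - ∑ t, G.d t * o t l / C₀.c t := by
      rw [Fin.sum_univ_succ, congrFun hR 0]
      simp only [hd, O, QC.idx, Fin.cons_succ, Fin.cons_zero]
      simp [sub_eq_add_neg, neg_div]
    have e2 : ∑ j, (∑ a, x a * ν a j) * ν' j l = ∑ j, G.μ j * ν' j l / G.r j := by
      simp only [h3, div_mul_eq_mul_div]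
    rw [neg_div, neg_add_eq_sub, ← neg_sub (κ l / C₀.m : ℝ), ← e1, ← e2, ← neg_add', neg_inj]
    simp only [disc, Pi.add_apply, Finset.sum_apply, Finset.sum_mul, Finset.sum_div]
    rw [Finset.sum_comm, Finset.sum_comm (γ := Fin G.k), ← Finset.sum_add_distrib]
    refine Finset.sum_congr rfl fun a _ => ?_
    simp only [Int.cast_add, Int.cast_sum, Int.cast_mul, Int.cast_natCast, Nat.cast_mul, dv',
      mul_add, add_div, Finset.mul_sum, Finset.sum_div]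
    refine congrArg₂ _ (Finset.sum_congr rfl fun e _ => ?_) (Finset.sum_congr rfl fun e _ => ?_) <;>
      field_simp
  refine hM k m x U V χ _ (fun y => G.π (q y)) exc _ hc' hK hx h1
    ⟨hχ, fun a => (hn a).1, fun a => (hn a).2, hV.res, cmp⟩ (fun l => ?_) fun l hl => ?_
  · refine (key l).symm ▸ ?_
    obtain ⟨y, hy, hy'⟩ := (Lg.freq1 (V.conn l).nonempty.choose_spec).exists
    obtain ⟨ζ, hζ⟩ := V.exEq y
    have he : At (chartAt (Cm 4) y) y := ⟨chart_mem_atlas _ _, mem_chart_source _ _⟩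
    set e := chartAt (Cm 4) y
    have ey : e.symm (e y) = y := e.left_inv he.2
    obtain ⟨i, hi⟩ := C₀.can.lb.cover (G.π (q y))
    choose a ha using fun t => (C₀.cart t).lb.cover (G.π (q y))
    choose b hb using fun j => (G.cart j).lb.cover (q y)
    obtain ⟨k1, k2⟩ := (κ1 y i e he hi).ord hζ hy' he
    have z0 : ζ l y = 0 := (hζ.iff.self_of_nhds l).2 hy
    refine hC₀ V.X q lg_reg ⟨_, hV.bim⟩ e.symm (e y) (fun w => ζ l (e.symm w)) (isCh_symm he)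
      ⟨((hζ l).2 e he).1, by simpa only [ey] using z0, ((hζ l).2 e he).2 z0⟩
      (k2.mono fun w h h' => ⟨hV.res.emb.isReg fun c => h h' (iUnion₂_subset_iUnion _ _ c),
        fun t c => h h' (hV.sub _ t c), fun u c => h h' (hV.sub' _ u c)⟩) i a b
      (by rwa [ey]) (by rwa [ey]) (by rwa [ey]) (κ l) (fun t => o t l) (fun j => ν' j l) ?_
      (fun t => ((ho t y _ (ha t)).ord hζ hy' he).1) fun j => ((hν j y _ (hb j)).ord hζ hy' he).1
    obtain ⟨u, u1, u2, u3⟩ := k1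
    refine ⟨u, u1, u2, ?_⟩
    filter_upwards [u3, e.eventually_right_inverse' he.2] with w a b c
    simpa only [b] using a c
  · rw [← neg_nonneg]
    refine (key l).symm ▸ ?_
    rcases nex _ s _ G C₀ V q exc _ _ (hN 0) hV (hT 0) hT' o ν' ho hν l hl with ⟨a, b⟩ | ⟨t, a, b⟩
    · simp [κ0 l hl, a, b]
    · have : (C₀.c t : ℝ) ≠ 0 := Nat.cast_ne_zero.2 (Nat.one_le_iff_ne_zero.1 (C₀.c_pos t))
      rw [Finset.sum_eq_single t (by simp +contextual [a]) (by simp)]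
      simpa [κ0 l hl, a, b, GP.d, this] using G.b_nonneg t

end Vale.Agent.P277Z.St
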