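import Vale.Agent.P277Z.St.OrdA
import Vale.Agent.P277Z.Val.Jz0
import Vale.Agent.P277Z.Glc.Sing
import Vale.Agent.P277.H19.Loc

/-!
# P277: the orders of the pluricanonical forms, the components which are not exceptional
-/

open scoped Manifold ContDiff Topology ComplexOrder
open Vale.Agent.P277 hiding Amin IsFlipR
open Vale.Agent.P272.K Vale.Agent.P285.H281.FD Vale.Agent.P277.HD Set Filter
open Vale.Agent.P277.PH (HolF at_chartAt ev_symm chg_analyticAt holF_of)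
open Vale.Agent.P277.T3 (ThinM thinM_iUnion)
open Vale.Agent.P277Z.Val

noncomputable section

namespace Vale.Agent.P277Z.St

/-! ### charts -/

section ch
variable {X : CSp} {g g' : Cm 4 → X.pt} {z z' : Cm 4}

theorem IsCh.dataO (h : IsCh X g z) : ∃ φ : X.pt → Cm 4, (∀ a, X.Hol (fun x => φ x a) (g z)) ∧
    Tendsto φ (𝓝 (g z)) (𝓝 z) ∧ (∀ᶠ w in 𝓝 z, φ (g w) = w) ∧ ∀ᶠ x in 𝓝 (g z), g (φ x) = x := by
  obtain ⟨h1, N, Ω, k, φ, h2, M, h3⟩ := h
  have h4 : Tendsto φ (𝓝 (g z)) (𝓝 z) := by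
    have := M.continuousAt h2
    rwa [ContinuousAt, h3.self_of_nhds] at this
  refine ⟨φ, fun a => M.isCoord.hol a _ h2, h4, h3, ?_⟩
  filter_upwards [h4.eventually (h3.and (h1.1.eventually (M.isOpen.mem_nhds h2))),
    M.isOpen.mem_nhds h2] with x a b using M.injOn a.2 b a.1

theorem IsCh.regO (h : IsCh X g z) : IsReg 4 X (g z) :=
  let ⟨_, N, Ω, k, φ, h2, M, _⟩ := h
  ⟨N, Ω, k, φ, h2, M⟩

theorem IsCh.evO (h : IsCh X g z) : ∀ᶠ w in 𝓝 z, IsCh X g w := by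
  obtain ⟨h1, N, Ω, k, φ, h2, M, h3⟩ := h
  filter_upwards [h1.eventually, h1.1.eventually (M.isOpen.mem_nhds h2), h3.eventually_nhds]
    with w a b c using ⟨a, N, Ω, k, φ, b, M, c⟩

theorem IsCh.holO (h : IsCh X g z) {f : X.pt → ℂ} (hf : AnalyticAt ℂ (fun w => f (g w)) z) :
    X.Hol f (g z) := by
  obtain ⟨φ, h1, -, h3, h4⟩ := h.dataO
  refine hol_congr (P277.hol_comp (G := fun w => f (g w)) h1 ?_) (h4.mono fun x hx => ?_)
  · exact h3.self_of_nhds.symm ▸ hf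
  · exact congrArg f hx.symm

theorem IsCh.chgO (h : IsCh X g z) (h' : HolAt X g' z') (e : g' z' = g z) :
    ∃ τ : Cm 4 → Cm 4, AnalyticAt ℂ τ z' ∧ τ z' = z ∧ ∀ᶠ w in 𝓝 z', g' w = g (τ w) := by
  obtain ⟨φ, h1, -, h3, h4⟩ := h.dataO
  rw [← e] at h1 h4
  exact ⟨fun w => φ (g' w), AnalyticAt.pi fun a => h'.analyticAt (h1 a),
    (congrArg φ e).trans h3.self_of_nhds, (h'.1.eventually h4).mono fun _ h => h.symm⟩

theorem exists_isChO {x : X.pt} (h : IsReg 4 X x) : ∃ g z, IsCh X g z ∧ g z = x := by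
  obtain ⟨N, Ω, k, φ, h2, M⟩ := h
  have : Nonempty X.pt := ⟨x⟩
  have h0 : φ '' N = Ω := M.image.trans (by simp)
  have h1 : ∀ᶠ w in 𝓝 (φ x), Function.invFunOn φ N w ∈ N ∧ φ (Function.invFunOn φ N w) = w := by
    filter_upwards [M.isOpen'.mem_nhds (h0 ▸ mem_image_of_mem φ h2)] with w hw
    exact Function.invFunOn_pos (h0.ge hw)
  refine ⟨Function.invFunOn φ N, φ x, ⟨holAt_of_coord M.isCoord (h1.mono fun _ h => h.1)
    fun a => (an_coord a _).congr (h1.mono fun w h => (congrFun h.2 a).symm), N, Ω, k, φ,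
    h1.self_of_nhds.1, M, h1.mono fun _ h => h.2⟩, M.injOn.leftInvOn_invFunOn h2⟩

/-- some four of the coordinates of a model are coordinates at a smooth point -/
theorem IsCh.selO (h : IsCh X g z) {N k : ℕ} {U : Set X.pt} {Ω : Set (Cm N)}
    {f : Fin k → Cm N → ℂ} {φ : X.pt → Cm N} (M : IsModel X.Hol U Ω f φ) (hz : g z ∈ U) :
    ∃ σ : Fin 4 → Option (Fin N), (fderiv ℂ (fun w => Glc.S44.sel σ (φ (g w))) z).det ≠ 0 := by
  obtain ⟨ψ, h1, -, h3, -⟩ := h.dataO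
  choose G hG e using fun a => (M.hol _ hz _).1 (h1 a)
  have h4 : AnalyticAt ℂ (fun w => φ (g w)) z :=
    AnalyticAt.pi fun a => h.1.analyticAt (M.isCoord.hol a _ hz)
  obtain ⟨σ, hσ⟩ := Glc.S44.exists_sel (r := 4) (by simp) (fderiv ℂ (fun w => φ (g w)) z)
  refine ⟨σ, (locIso_of_inj (((Glc.S44.sel σ).analyticAt _).comp h4) ?_).2⟩
  rw [((Glc.S44.sel σ).hasFDerivAt.comp z h4.differentiableAt.hasFDerivAt).fderiv]
  refine (injective_iff_map_eq_zero _).2 fun v hv => Glc.S44.inj_of (g := fun w a => G a w) h4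
    (AnalyticAt.pi hG) ?_ (hσ v hv)
  filter_upwards [h3, h.1.1.eventually (eventually_all.2 e)] with w a b
  exact (funext fun i => (b i).symm).trans a

/-- the pluricanonical form `(dG_1 ∧ ⋯ ∧ dG_4)^m` is a holomorphic section -/
theorem exists_J {m : ℕ} {L : Bd X.pt} {η} (hX : IsNormal 4 X) (hc : IsCan X m L η) {N : Set X.pt}
    (hN : IsOpen N) {G : X.pt → Cm 4} (hG : ∀ x ∈ N, ∀ a, X.Hol (fun x => G x a) x) {i : L.ι}
    (hi : N ⊆ L.U i) : ∃ J : X.pt → ℂ, (∀ x ∈ N, X.Hol J x) ∧ ∀ g z, IsCh X g z → g z ∈ N →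
      η i g z * J (g z) = (fderiv ℂ (fun w => G (g w)) z).det ^ m := by
  have := hX.sing.nonempty
  choose! c s hs e using fun x (h : IsReg 4 X x) => exists_isChO h
  have an : ∀ g z, IsCh X g z → g z ∈ N → AnalyticAt ℂ (fun w => G (g w)) z := fun g z a b =>
    AnalyticAt.pi fun j => a.1.analyticAt (hG _ b j)
  set J : X.pt → ℂ := fun x => (fderiv ℂ (fun w => G (c x w)) (s x)).det ^ m / η i (c x) (s x)
    with hJ
  have key : ∀ g z, IsCh X g z → g z ∈ N →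
      η i g z * J (g z) = (fderiv ℂ (fun w => G (g w)) z).det ^ m := by
    intro g z a b
    have a1 := hs _ a.regO
    have a2 := e _ a.regO
    obtain ⟨τ, t1, t2, t3⟩ := a1.chgO a.1 a2.symm
    have a3 : c (g z) (s (g z)) ∈ N := a2.symm ▸ b
    rw [hc.comp i _ g τ z t1 (t2.symm ▸ a1) (t2.symm ▸ hi a3) t3,
      EventuallyEq.fderiv_eq (f₁ := fun w => G (g w)) (f := fun w => G (c (g z) (τ w)))
        (t3.mono fun w h => congrArg G h), det_comp (φ := fun w => G (c (g z) w))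
        (t2.symm ▸ (an _ _ a1 a3).differentiableAt) t1.differentiableAt, t2, hJ, mul_pow]
    have := (hc.an i _ _ a1 (hi a3)).1
    field_simp
  obtain ⟨J', j1, j2⟩ := hX.ext N _ hN ((Glc.sing_an hX.dense).mono (subset_univ _))
    (hX.sing.mono inter_subset_right) J fun x hx => by
      have a0 : IsReg 4 X x := not_not.1 hx.2
      have a1 := hs x a0
      have a3 : c x (s x) ∈ N := (e x a0).symm ▸ hx.1
      rw [← e x a0]
      refine a1.holO ((((an_jac (an _ _ a1 a3)).pow m).div (hc.an i _ _ a1 (hi a3)).2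
        (hc.an i _ _ a1 (hi a3)).1).congr ?_)
      filter_upwards [a1.evO, a1.1.1.eventually (hN.mem_nhds a3)] with w a b
      exact (eq_div_of_mul_eq (hc.an i _ _ a (hi b)).1 ((mul_comm _ _).trans (key _ _ a b))).symm
  exact ⟨J', j1, fun g z a b => by rw [j2 _ ⟨b, not_not.2 a.regO⟩, key g z a b]⟩

end ch

variable {V : Lg} {X : CSp} {O : Set V.W} {v : V.W → X.pt} {y : V.W}

theorem isCh_emb (hv : IsOpenEmb X O v) (hy : y ∈ O) {e : Chart 4 V.W} (he : At e y) :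
    IsCh X (fun w => v (e.symm w)) (e y) := by
  refine ⟨hv.holAt hy he, v '' (O ∩ e.source), _, _, _,
    ⟨y, ⟨hy, he.2⟩, by simp only [e.left_inv he.2]⟩, hv.isModel y he.1, ?_⟩
  filter_upwards [ev_symm he.2 (hv.isOpen.eventually_mem hy), e.eventually_right_inverse' he.2]
    with w a b
  rw [hv.inv_apply y a, b]

theorem can_chg {m : ℕ} {L : Bd X.pt} {η} (hc : IsCan X m L η) (hv : IsOpenEmb X O v) (hy : y ∈ O)
    {i j : L.ι} {e e' : Chart 4 V.W} (he : At e y) (he' : At e' y) (hi : v y ∈ L.U i)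
    (hj : v y ∈ L.U j) : η j (fun w => v (e'.symm w)) (e' y) = L.g i j (v y) *
      η i (fun w => v (e.symm w)) (e y) * (fderiv ℂ (fun w => e (e'.symm w)) (e' y)).det ^ m := by
  have h1 := hc.comp j (fun w => v (e.symm w)) (fun w => v (e'.symm w)) (fun w => e (e'.symm w))
    (e' y) (trans_analyticAt he' he)
  have h2 := hc.change i j _ _ (isCh_emb hv hy he)
  simp only [e'.left_inv he'.2, e.left_inv he.2] at h1 h2
  rw [h1 (isCh_emb hv hy he) hj (ev_symm he'.2 (P := fun x => v x = v (e.symm (e x)))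
    ((e.eventually_left_inverse he.2).mono fun _ h => congrArg v h.symm)), h2 hi hj]

theorem ordK : StOrdK := by
  intro V X p exc m L η hX hp hc
  have h0 : ∀ y ∉ V.E, y ∈ (⋃ l ∈ exc, V.G l)ᶜ := fun y hy e =>
    hy ((iUnion₂_subset fun l _ => subset_iUnion V.G l :) e)
  have un : ∀ y ∈ (⋃ l ∈ exc, V.G l)ᶜ, ∀ i (e : Chart 4 V.W), At e y → p y ∈ L.U i →
      HolF 4 (fun x => η i (fun w => p (e.symm w)) (e x)) y ∧
        η i (fun w => p (e.symm w)) (e y) ≠ 0 := fun y hy i e he hi => by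
    have := hc.an i _ _ (isCh_emb hp.emb hy he) (by simpa only [e.left_inv he.2] using hi)
    exact ⟨(crd_chart he).holF this.2, this.1⟩
  obtain ⟨κ, hκ⟩ : ∃ κ, ∀ c : L.ι × atlas (Cm 4) V.W, ∀ y ∈ c.2.1.source ∩ p ⁻¹' L.U c.1,
      Mon V κ (fun x => η c.1 (fun w => p (c.2.1.symm w)) (c.2.1 x)) y := by
    refine exists_glob' _ _ (fun c => c.2.1.open_source.inter ((hc.lb.isOpen _).preimage hp.cont))
      (fun y => (hc.lb.cover (p y)).elim fun i hi =>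
        ⟨(i, ⟨_, (at_chartAt y).1⟩), (at_chartAt y).2, hi⟩) ?_ ?_
    · rintro ⟨i, e, he⟩ y ⟨hy, hi⟩
      obtain ⟨N, k, U, Ω, f, φ, hU, M⟩ := X.model (p y)
      have h1 : ∀ᶠ x in 𝓝 y, At e x ∧ p x ∈ U ∩ L.U i :=
        (At.near ⟨he, hy⟩).and (hp.cont.continuousAt.eventually
          ((M.isOpen.inter (hc.lb.isOpen i)).mem_nhds ⟨hU, hi⟩))
      obtain ⟨σ, hσ⟩ : ∃ σ : Fin 4 → Option (Fin N), ∃ᶠ x in 𝓝 y, x ∉ V.E ∧
          (fderiv ℂ (fun w => Glc.S44.sel σ (φ (p (e.symm w)))) (e x)).det ≠ 0 := by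
        by_contra k
        obtain ⟨x, a, b, c⟩ := ((V.freqE y).and_eventually (h1.and (eventually_all.2 fun σ =>
          not_frequently.1 (not_exists.1 k σ)))).exists
        obtain ⟨σ, hσ⟩ := (isCh_emb hp.emb (h0 x a) b.1).selO M
          (by simpa only [e.left_inv b.1.2] using b.2.1)
        exact c σ ⟨a, hσ⟩
      have hG : ∀ x ∈ U ∩ L.U i, ∀ a, X.Hol (fun x => Glc.S44.sel σ (φ x) a) x := fun x hx a =>
        (M.hol x hx.1 _).2 ⟨fun w => Glc.S44.sel σ w a,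
          analyticAt_pi_iff.1 ((Glc.S44.sel σ).analyticAt _) a, .rfl⟩
      obtain ⟨J, j1, j2⟩ := exists_J hX hc (M.isOpen.inter (hc.lb.isOpen i)) hG inter_subset_right
      have h2 : ∀ᶠ x in 𝓝 y, x ∉ V.E → η i (fun w => p (e.symm w)) (e x) * J (p x) =
          (fderiv ℂ (fun w => Glc.S44.sel σ (φ (p (e.symm w)))) (e x)).det ^ m := by
        filter_upwards [h1] with x a b
        have := j2 _ _ (isCh_emb hp.emb (h0 x b) a.1)
        simp only [e.left_inv a.1.2] at this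
        exact this a.2
      refine exists_mon (a := fun x =>
        (fderiv ℂ (fun w => Glc.S44.sel σ (φ (p (e.symm w)))) (e x)).det ^ m)
        ((crd_chart ⟨he, hy⟩).holF ((an_jac (AnalyticAt.pi fun a =>
          hp.hol y _ (hG _ ⟨hU, hi⟩ a) e ⟨he, hy⟩)).pow m)) (hp.hol y J (j1 _ ⟨hU, hi⟩))
        (fun k => ?_) ?_
      · obtain ⟨x, a, b, c⟩ := (hσ.and_eventually (h2.and k)).exists
        exact pow_ne_zero m a.2 (by rw [← b a.1, c, mul_zero])
      · filter_upwards [h1, h2] with x a b c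
        exact ⟨(un x (h0 x c) i e a.1 a.2.2).1, (un x (h0 x c) i e a.1 a.2.2).2, b c⟩
    · rintro ⟨i, e, he⟩ ⟨j, e', he'⟩ y ⟨hy, hi⟩ ⟨hy', hj⟩
      have h1 := (crd_chart ⟨he', hy'⟩).chg (crd_chart ⟨he, hy⟩)
      refine ⟨fun x => L.g i j (p x) * (fderiv ℂ (fun w => e (e'.symm w)) (e' x)).det ^ m,
        (hp.hol y _ (hc.lb.holo i j _ hi hj)).mul
          ((crd_chart ⟨he', hy'⟩).holF ((an_jac h1.1).pow m)),
        mul_ne_zero (hc.lb.ne_zero i j _ hi hj) (pow_ne_zero m h1.2), ?_⟩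
      filter_upwards [At.near ⟨he, hy⟩, At.near ⟨he', hy'⟩, hp.cont.continuousAt.eventually
        (((hc.lb.isOpen i).inter (hc.lb.isOpen j)).mem_nhds ⟨hi, hj⟩)] with x a b c d
      rw [can_chg hc hp.emb (h0 x d) a b c.1 c.2]
      ring
  refine ⟨κ, fun l hl => ?_, fun y i e he hi => hκ (i, ⟨e, he.1⟩) y ⟨he.2, hi⟩,
    fun y hy i j e e' he he' hi hj => by
      rw [can_chg hc hp.emb (h0 y hy) he he' hi hj, H19.det_jacM he' he]⟩
  obtain ⟨y, a, b⟩ := (Lg.freq1 (V.conn l).nonempty.some_mem).exists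
  obtain ⟨i, hi⟩ := hc.lb.cover (p y)
  have he := at_chartAt (n := 4) y
  have := un y (fun e => by
    obtain ⟨k, k1, k2⟩ := mem_iUnion₂.1 e
    exact b k (fun e => hl (e ▸ k1)) k2) i _ he hi
  exact (hκ (i, ⟨_, he.1⟩) y ⟨he.2, hi⟩).unique (mon_zero this.1 this.2) a

/-! ### the components which are not exceptional -/

theorem thin_pre (hv : IsOpenEmb X O v) {T : Set X.pt} (hT : DimLe X 2 T) (y₀ : V.W) :
    ThinM 4 2 (O ∩ v ⁻¹' T) := by
  obtain ⟨Ω, g, h1, h2, h3⟩ := hT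
  refine ⟨fun k => Ω k ∩ g k ⁻¹' (v '' O), fun k p => hv.inv y₀ (g k p), fun k =>
    isOpen_iff_mem_nhds.2 fun p hp => inter_mem ((h1 k).mem_nhds hp.1)
      ((h2 k p hp.1).1 (hv.isOpen_image.mem_nhds hp.2)), ?_, ?_⟩
  · rintro k p ⟨a, y, b, c⟩
    refine ⟨ContinuousAt.comp (g := hv.inv y₀) (c ▸ hv.inv_continuousAt y₀ b) (h2 k p a).1,
      fun e he => AnalyticAt.pi fun j => (h2 k p a).analyticAt
        (f := fun x => e (hv.inv y₀ x) j) (c ▸ hv.hol_chart y₀ b ?_ j)⟩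
    simpa only [← c, hv.inv_apply y₀ b] using he
  · rintro y ⟨a, b⟩
    obtain ⟨k, p, c, d⟩ := mem_iUnion.1 (h3 b)
    exact mem_iUnion.2 ⟨k, p, ⟨c, y, a, d.symm⟩, by simp only [d, hv.inv_apply y₀ a]⟩

theorem IsBim.embO {A : Set X.pt} (h : IsBim V.X X v A) : IsOpenEmb X (v ⁻¹' A)ᶜ v where
  isOpen := ((isClosed_of_isAn h.an).preimage h.cont).isOpen_compl
  cont := h.cont.continuousOn
  inj x hx x' _ e := (h.inj x x' hx e.symm).symm
  isOpenMap W hW ho := isOpen_iff_mem_nhds.2 (by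
    rintro _ ⟨x, hx, rfl⟩
    exact h.evO (hW hx) (p := (· ∈ v '' W)) ((ho.eventually_mem hx).mono fun x' a => ⟨x', a, rfl⟩))
  hol x hx e he g := ⟨fun a => h.holo x g a e he, fun a => by
    obtain ⟨k, k1, k2⟩ := h.iso x (fun x => g (v x)) hx (holF_of (g := fun x => g (v x)) he a)
    exact hol_congr k1 (h.evO hx (p := fun z => g z = k z) k2)⟩

theorem holF_emb (hv : IsOpenEmb X O v) (hy : y ∈ O) {f : X.pt → ℂ} (hf : X.Hol f (v y)) :
    HolF 4 (fun x => f (v x)) y := fun e he => (hv.hol y hy e he f).1 hf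

variable {ι : Type} {P : ι → Set X.pt} {l : Fin V.r}

theorem loc_hyp [Finite ι] {S : Set X.pt} (hv : IsOpenEmb X O v) (hy : y ∈ O) (hg : U.Gen V l y)
    (hD : Divs X P S) (hs : ∀ y t, v y ∈ P t → y ∈ V.E) {t : ι} (ht : v y ∈ P t) (hS : v y ∉ S) :
    ∀ᶠ x in 𝓝 y, ∀ t', v x ∈ P t' ↔ t' = t ∧ x ∈ V.G l := by
  obtain ⟨⟨g, z, ζ, h1, h2, h3, h4⟩, h5⟩ := hD.hyp t _ ht hS
  obtain ⟨φ, k1, k2, k3, k4⟩ := h1.dataO
  have k5 : φ (v y) = z := h2 ▸ k3.self_of_nhds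
  rw [h2] at k1 k2 k4
  have h6 : ∀ᶠ x in 𝓝 y, v x ∈ P t ↔ ζ (φ (v x)) = 0 := by
    filter_upwards [(hv.continuousAt hy).eventually ((k2.eventually h4).and k4)] with x a
    rw [← a.1, a.2]
  obtain ⟨n, hn⟩ := Val.exists_mon (f := fun x => ζ (φ (v x)))
    (holF_emb hv hy (P277.hol_comp (G := ζ) k1 (k5.symm ▸ h3.1)))
    (h6.mono fun x a b c => b (hs x t (a.2 c)))
  obtain ⟨ξ, hξ⟩ := V.exEq y
  obtain ⟨u, -, u2, u3⟩ := hn ξ hξ
  have h7 : n l ≠ 0 := by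
    obtain ⟨k, -, e⟩ := Finset.prod_eq_zero_iff.1 ((mul_eq_zero.1
      (u3.self_of_nhds.symm.trans (h6.self_of_nhds.1 ht))).resolve_left u2)
    rw [pow_eq_zero_iff'] at e
    exact (by_contra fun c => hg.2 k c ((hξ.iff.self_of_nhds k).1 e.1) : k = l) ▸ e.2
  refine eventually_all.2 fun t' => ?_
  by_cases e : t' = t
  · subst e
    filter_upwards [h6, u3, hξ.iff, hg.eventually] with x a b c d
    refine ⟨fun f => ⟨rfl, ?_⟩, fun f => a.2 ?_⟩
    · obtain ⟨k, hk⟩ := mem_iUnion.1 (hs x _ f)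
      exact (by_contra fun c => d k c hk : k = l) ▸ hk
    · rw [b, Finset.prod_eq_zero (Finset.mem_univ l) (by rw [(c l).2 f.2, zero_pow h7]), mul_zero]
  · filter_upwards [(hv.continuousAt hy).eventually
      ((isClosed_of_isAn (hD.an t')).isOpen_compl.eventually_mem (h5 t' e))] with x a
    exact ⟨fun f => absurd f a, fun f => absurd f.1 e⟩

variable {n : ι → ℤ} {L : Bd X.pt} {σ : L.ι → X.pt → ℂ} {i : L.ι} {o : Fin V.r → ℤ}

theorem ord_eq (hv : IsOpenEmb X O v) (hy : y ∈ O) (hl : y ∈ V.G l) (hc : IsCart X P n L σ) {t : ι}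
    (h : ∀ᶠ x in 𝓝 y, ∀ t', v x ∈ P t' ↔ t' = t ∧ x ∈ V.G l) (hi : v y ∈ L.U i)
    (hm : Mon V o (fun x => σ i (v x)) y) : o l = n t := by
  obtain ⟨ζ, hζ⟩ := V.exEq y
  have he := at_chartAt (n := 4) y
  set e := chartAt (Cm 4) y
  have h0 : ζ l y = 0 := (hζ.iff.self_of_nhds l).2 hl
  obtain ⟨u, u1, u2, u3⟩ := hc.ord t i _ _ (fun w => ζ l (e.symm w)) (isCh_emb hv hy he)
    (by simpa only [e.left_inv he.2] using hi)
    ⟨((hζ l).2 e he).1, by simpa only [e.left_inv he.2] using h0, ((hζ l).2 e he).2 h0⟩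
    (ev_symm he.2 (P := fun x => ∀ t', v x ∈ P t' ↔ t' = t ∧ ζ l x = 0) (by
      filter_upwards [h, hζ.iff] with x a b t'
      rw [a, b]))
  refine (hm.unique (n' := Pi.single l (n t)) (.of_exists hζ ((crd_chart he).holF u1) u2 ?_)
    hl).trans (Pi.single_eq_same _ _)
  filter_upwards [(crd_chart he).cont.eventually u3, (crd_chart he).left, hζ.ne] with x a b c d
  simp only [b] at a
  rw [a (c d l), Finset.prod_eq_single l (fun k _ hk => by simp [hk]) (by simp),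
    Pi.single_eq_same]

theorem ord_zero (hv : IsOpenEmb X O v) (hy : y ∈ O) (hl : y ∈ V.G l) (hc : IsCart X P n L σ)
    (h : ∀ t, v y ∉ P t) (hi : v y ∈ L.U i) (hm : Mon V o (fun x => σ i (v x)) y) : o l = 0 :=
  have h0 : v y ∉ ⋃ t, P t := by simpa using h
  hm.unique (mon_zero (holF_emb hv hy (hc.sec.holo i _ h0 hi)) (hc.ne i _ hi h0)) hl

theorem nex : StNex := by
  intro X s Q G C V q exc S S' _ hF hD hD' o ν ho hν l hl
  have hp := hF.res.emb
  have hq : IsOpenEmb G.X' (⋃ l ∈ exc, V.G l)ᶜ q := hF.bim.embO.mono hp.isOpen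
    fun y hy ⟨y', a, b⟩ => hy (hF.res.inj y y' hy b ▸ a)
  obtain ⟨y₀, h0⟩ := (V.conn l).nonempty
  have : Nonempty V.W := ⟨y₀⟩
  obtain ⟨y, hy, hB⟩ := (U.not_thin h0 (((U.thin_notGen V l).union (thin_pre hp hD.dim y₀)).union
    ((thin_pre hq hD'.dim y₀).union (thinM_iUnion fun u => thin_pre hp (G.exc u) y₀)))).exists
  simp only [mem_union, not_or, mem_iUnion (s := fun u => _ ∩ _), not_exists] at hB
  obtain ⟨⟨b1, b2⟩, b3, b4⟩ := hB
  have hg : U.Gen V l y := by_contra fun c => b1 ⟨hy, c⟩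
  have hO : y ∈ (⋃ l ∈ exc, V.G l)ᶜ := fun e => by
    obtain ⟨k, k1, k2⟩ := mem_iUnion₂.1 e
    exact hg.2 k (fun e => hl (e ▸ k1)) k2
  choose a ha using fun t => (C.cart t).lb.cover (G.π (q y))
  choose b hb using fun j => (G.cart j).lb.cover (q y)
  by_cases h : ∃ t, G.π (q y) ∈ Q t
  · obtain ⟨t, ht⟩ := h
    have h1 : q y ∈ G.P (.inl t) := by
      obtain ⟨x, c, d⟩ : G.π (q y) ∈ G.π '' G.P (.inl t) := (G.str t).symm ▸ ht
      obtain ⟨y', rfl⟩ := hF.bim.surj x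
      exact hF.res.inj y y' hO d ▸ c
    refine .inr ⟨t, fun t' => ?_, fun j => ord_eq hq hO hy (G.cart j)
      (loc_hyp hq hO hg hD' hF.sub' h1 fun c => b3 ⟨hO, c⟩) (hb j) (hν j y _ (hb j))⟩
    rw [ord_eq hp hO hy (C.cart t') (loc_hyp hp hO hg hD hF.sub ht fun c => b2 ⟨hO, c⟩) (ha t')
      (ho t' y _ (ha t')), Pi.single_apply]
    by_cases e : t' = t
    · simp [e]
    · rw [if_neg e, if_neg (Ne.symm e)]
  · refine .inl ⟨fun t => ord_zero hp hO hy (C.cart t) (not_exists.1 h) (ha t) (ho t y _ (ha t)),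
      fun j => ord_zero hq hO hy (G.cart j) ?_ (hb j) (hν j y _ (hb j))⟩
    rintro (t | u) c
    · exact h ⟨t, G.str t ▸ mem_image_of_mem G.π c⟩
    · exact b4 u ⟨hO, mem_image_of_mem G.π c⟩

end Vale.Agent.P277Z.St
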