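import Vale.Agent.P277.HD.Base

/-!
# P277: generalized pairs on compact Kähler fourfolds and their flips. Definitions.
-/

open scoped Manifold ContDiff Topology ComplexOrder
open Vale.Agent.P272.K Vale.Agent.P285.H281.FD Vale.Agent.P277 Vale.Agent.P277.HD Set Filter

noncomputable section

namespace Vale.Agent.P277Z.St

/-- `g` is near `z` the inverse of a chart of `X` at the smooth point `g z`. -/
def IsCh (X : CSp) (g : Cm 4 → X.pt) (z : Cm 4) : Prop :=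
  HolAt X g z ∧ ∃ (V : Set X.pt) (Ω : Set (Cm 4)) (h : Fin 0 → Cm 4 → ℂ) (φ : X.pt → Cm 4),
    g z ∈ V ∧ IsModel X.Hol V Ω h φ ∧ ∀ᶠ w in 𝓝 z, φ (g w) = w

/-! ### Kähler forms -/

/-- `u` is near `x` the restriction of a smooth function under a local embedding. -/
def Sm (X : CSp) (u : X.pt → ℝ) (x : X.pt) : Prop :=
  ∃ (N k : ℕ) (V : Set X.pt) (Ω : Set (Cm N)) (h : Fin k → Cm N → ℂ) (φ : X.pt → Cm N)
    (ψ : Cm N → ℝ), x ∈ V ∧ IsModel X.Hol V Ω h φ ∧ (∀ z ∈ Ω, ContDiffAt ℝ ∞ ψ z) ∧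
    ∀ y ∈ V, u y = ψ (φ y)

/-- `u` is near `x` the restriction of a smooth strictly plurisubharmonic function under a local
embedding. -/
def Sp (X : CSp) (u : X.pt → ℝ) (x : X.pt) : Prop :=
  ∃ (N k : ℕ) (V : Set X.pt) (Ω : Set (Cm N)) (h : Fin k → Cm N → ℂ) (φ : X.pt → Cm N)
    (ψ : Cm N → ℝ), x ∈ V ∧ IsModel X.Hol V Ω h φ ∧
    (∀ z ∈ Ω, ContDiffAt ℝ ∞ ψ z ∧ (cHess ψ z).PosDef) ∧ ∀ y ∈ V, u y = ψ (φ y)

/-- `∂∂̄u = 0` at `x`, if `x` is a smooth point. -/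
def Ph (X : CSp) (u : X.pt → ℝ) (x : X.pt) : Prop :=
  ∀ g z, IsCh X g z → g z = x → cHess (fun w => u (g w)) z = 0

/-- A real `(1,1)`-form with smooth local potentials: it is `i∂∂̄ (u i)` on `U i`. -/
structure Pot (X : CSp) where
  /-- the index set -/
  ι : Type
  /-- the open cover -/
  U : ι → Set X.pt
  /-- the potentials -/
  u : ι → X.pt → ℝ
  isOpen : ∀ i, IsOpen (U i)
  cover : ∀ x, ∃ i, x ∈ U i
  sm : ∀ i, ∀ x ∈ U i, Sm X (u i) x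
  ph : ∀ i j, ∀ x ∈ U i, x ∈ U j → Ph X (fun y => u i y - u j y) x

/-- Kähler forms. -/
def Pot.Pos {X : CSp} (w : Pot X) : Prop := ∀ i, ∀ x ∈ w.U i, Sp X (w.u i) x

/-- Kähler spaces. -/
def Kah (X : CSp) : Prop := ∃ w : Pot X, w.Pos

/-- The first Chern class of `L` is in the closure of the Kähler cone in Bott-Chern cohomology:
there are forms `η a` such that for arbitrarily small `t` the curvature form of some smooth metric
`ψ` on `L` plus `∑ a, t a • η a` is a Kähler form `w`. -/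
def NefX (X : CSp) (L : Bd X.pt) : Prop :=
  ∃ (m : ℕ) (η : Fin m → Pot X), ∀ δ : ℝ, 0 < δ →
    ∃ (t : Fin m → ℝ) (ψ : L.ι → X.pt → ℝ) (w : Pot X), (∀ a, |t a| < δ) ∧ w.Pos ∧
      (∀ i, ∀ x ∈ L.U i, Sm X (ψ i) x) ∧
      (∀ i j x, x ∈ L.U i → x ∈ L.U j → ψ i x = ψ j x + Real.log (‖L.g i j x‖ ^ 2)) ∧
      ∀ i (b : ∀ a, (η a).ι) c x, x ∈ L.U i → (∀ a, x ∈ (η a).U (b a)) → x ∈ w.U c →
        Ph X (fun y => ψ i y + ∑ a, t a * (η a).u (b a) y - w.u c y) x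

/-! ### divisors -/

/-- Prime divisors: irreducible analytic subsets of dimension three. -/
structure IsPrime (X : CSp) (Q : Set X.pt) : Prop where
  an : IsAn X univ Q
  irr : ∀ A B, IsAn X univ A → IsAn X univ B → Q ⊆ A ∪ B → Q ⊆ A ∨ Q ⊆ B
  dim : DimLe X 3 Q
  dim' : ¬ DimLe X 2 Q

/-- `ζ = 0` is a smooth hypersurface through `z`. -/
def Eqn (ζ : Cm 4 → ℂ) (z : Cm 4) : Prop := AnalyticAt ℂ ζ z ∧ ζ z = 0 ∧ fderiv ℂ ζ z ≠ 0

/-- Near `z` the divisor of `F` is `k • {ζ = 0}`. -/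
def Ord (F ζ : Cm 4 → ℂ) (z : Cm 4) (k : ℤ) : Prop :=
  ∃ u : Cm 4 → ℂ, AnalyticAt ℂ u z ∧ u z ≠ 0 ∧ ∀ᶠ w in 𝓝 z, ζ w ≠ 0 → F w = u w * ζ w ^ k

/-- The divisor `∑ t, n t • P t` is Cartier: it is the divisor of the meromorphic section `σ` of the
line bundle `L`. -/
structure IsCart (X : CSp) {ι : Type} (P : ι → Set X.pt) (n : ι → ℤ) (L : Bd X.pt)
    (σ : L.ι → X.pt → ℂ) : Prop where
  lb : IsLBx X L
  sec : IsSecx X (⋃ t, P t)ᶜ L σ
  ne : ∀ i, ∀ x ∈ L.U i, x ∉ ⋃ t, P t → σ i x ≠ 0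
  mer : ∀ i, ∀ x ∈ L.U i, ∃ u v : X.pt → ℂ, X.Hol u x ∧ X.Hol v x ∧
    ∀ᶠ y in 𝓝 x, ¬ v =ᶠ[𝓝 y] 0 ∧ (y ∉ ⋃ t, P t → σ i y * v y = u y)
  ord : ∀ t i g z ζ, IsCh X g z → g z ∈ L.U i → Eqn ζ z →
    (∀ᶠ w in 𝓝 z, ∀ t', g w ∈ P t' ↔ t' = t ∧ ζ w = 0) → Ord (fun w => σ i (g w)) ζ z (n t)

/-- The reflexive power `ω^[m]` is the line bundle `L`: the frame of `L` over `U i` is the
`m`-canonical form on the smooth part of `U i` whose pull back by `g` is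
`η i g • (dz_1 ∧ ⋯ ∧ dz_4)^m`. -/
structure IsCan (X : CSp) (m : ℕ) (L : Bd X.pt) (η : L.ι → (Cm 4 → X.pt) → Cm 4 → ℂ) : Prop where
  lb : IsLBx X L
  an : ∀ i g z, IsCh X g z → g z ∈ L.U i →
    η i g z ≠ 0 ∧ AnalyticAt ℂ (η i g) z
  comp : ∀ i g g' (τ : Cm 4 → Cm 4) z, AnalyticAt ℂ τ z → IsCh X g (τ z) → g (τ z) ∈ L.U i →
    (∀ᶠ w in 𝓝 z, g' w = g (τ w)) → η i g' z = η i g (τ z) * (fderiv ℂ τ z).det ^ m
  change : ∀ i j g z, IsCh X g z → g z ∈ L.U i → g z ∈ L.U j →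
    η j g z = L.g i j (g z) * η i g z

/-- `K_X` and the divisors `Q t` are `ℚ`-Cartier: `K` is `ω^[m]`, and `L t` is `𝒪 (c t • Q t)`. -/
structure QC (X : CSp) {s : ℕ} (Q : Fin s → Set X.pt) where
  /-- the index of `K_X` -/
  m : ℕ
  /-- the line bundle of `m K_X` -/
  K : Bd X.pt
  /-- its frames -/
  η : K.ι → (Cm 4 → X.pt) → Cm 4 → ℂ
  /-- the indices of the `Q t` -/
  c : Fin s → ℕ
  /-- the line bundles of the `c t • Q t` -/
  L : Fin s → Bd X.pt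
  /-- their canonical sections -/
  σ : ∀ t, (L t).ι → X.pt → ℂ
  m_pos : 1 ≤ m
  c_pos : ∀ t, 1 ≤ c t
  can : IsCan X m K η
  cart : ∀ t, IsCart X Q (Pi.single t (c t : ℤ)) (L t) (σ t)

/-- `X` is `ℚ`-factorial. -/
def QFact (X : CSp) : Prop :=
  (∀ Q, IsPrime X Q → ∃ (c : ℕ) (L : Bd X.pt) (σ : L.ι → X.pt → ℂ), 1 ≤ c ∧
    IsCart X (fun _ : Unit => Q) (fun _ => c) L σ) ∧
  ∃ (m : ℕ) (L : Bd X.pt) (η : L.ι → (Cm 4 → X.pt) → Cm 4 → ℂ), 1 ≤ m ∧ IsCan X m L η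

/-- `∑ e, ρ e • L e` is `f`-ample: in `Pic X ⊗ ℝ` it is a positive combination `∑ a, x a • A a` of
`f`-ample line bundles. -/
def RAmple (X Z : CSp) (f : X.pt → Z.pt) {k : ℕ} (L : Fin k → Bd X.pt) (ρ : Fin k → ℝ) : Prop :=
  ∃ (q : ℕ) (A : Fin (q + 1) → Bd X.pt) (x : Fin (q + 1) → ℝ),
    (∀ a, 0 < x a ∧ IsLBx X (A a) ∧ RelAmple X Z f (A a)) ∧
    ∃ (b : ℕ) (n : Fin b → Fin k → ℤ) (ν : Fin b → Fin (q + 1) → ℤ) (y : Fin b → ℝ),
      (∀ β, IsTriv X ((Bd.lin L (n β)).mul (Bd.inv (Bd.lin A (ν β))))) ∧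
      (∀ e, ρ e = ∑ β, y β * n β e) ∧ ∀ a, x a = ∑ β, y β * ν β a

/-- The `ℝ`-Cartier divisor `κ • K_X + ∑ t, d t • Q t` is `f`-ample. -/
def DAmple (X Z : CSp) (f : X.pt → Z.pt) {s : ℕ} (Q : Fin s → Set X.pt) (κ : ℝ)
    (d : Fin s → ℝ) : Prop :=
  ∃ C : QC X Q, RAmple X Z f (Fin.cons C.K C.L : Fin (s + 1) → Bd X.pt)
    (Fin.cons (κ / C.m) fun t => d t / C.c t)

/-! ### morphisms -/

/-- `f` is a bimeromorphic morphism, an isomorphism over the complement of the nowhere dense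
analytic set `A`. -/
structure IsBim (X Z : CSp) (f : X.pt → Z.pt) (A : Set Z.pt) : Prop where
  cont : Continuous f
  holo : ∀ x g, Z.Hol g (f x) → X.Hol (g ∘ f) x
  surj : Function.Surjective f
  an : IsAn Z univ A
  dense : Dense (f ⁻¹' A)ᶜ
  inj : ∀ x x', f x ∉ A → f x' = f x → x' = x
  iso : ∀ x g, f x ∉ A → X.Hol g x → ∃ h, Z.Hol h (f x) ∧ g =ᶠ[𝓝 x] h ∘ f

/-- `f` is a small bimeromorphic morphism which is not an isomorphism. -/
structure Small (X Z : CSp) (f : X.pt → Z.pt) : Prop where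
  bim : ∃ A, IsBim X Z f A
  small : ∀ E, IsPrime X E → ¬ DimLe Z 2 (f '' E)
  niso : ¬ (Function.Injective f ∧ ∀ x g, X.Hol g x → ∃ h, Z.Hol h (f x) ∧ g =ᶠ[𝓝 x] h ∘ f)

/-! ### generalized pairs -/

/-- A generalized pair on `X`: `B = ∑ t, b t • Q t`, and `M' = ∑ j, μ j • M' j` on `X'`, where
`r j • M' j = ∑ u, n j u • P u` is the divisor of the section `τ j` of the nef line bundle `N j`.
The divisor `P (inl t)` is the strict transform of `Q t`, the `P (inr u)` are exceptional. -/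
structure GP (X : CSp) {s : ℕ} (Q : Fin s → Set X.pt) where
  /-- the coefficients of the boundary -/
  b : Fin s → ℝ
  /-- the space which carries the nef part -/
  X' : CSp
  /-- the map -/
  π : X'.pt → X.pt
  /-- the number of the exceptional divisors -/
  e : ℕ
  /-- the divisors on `X'` -/
  P : Fin s ⊕ Fin e → Set X'.pt
  /-- the number of the nef divisors -/
  k : ℕ
  /-- their coefficients -/
  μ : Fin k → ℝ
  /-- their indices -/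
  r : Fin k → ℕ
  /-- the coefficients of the Cartier multiples -/
  n : Fin k → Fin s ⊕ Fin e → ℤ
  /-- the line bundles -/
  N : Fin k → Bd X'.pt
  /-- the sections -/
  τ : ∀ j, (N j).ι → X'.pt → ℂ
  b_nonneg : ∀ t, 0 ≤ b t
  normal : IsNormal 4 X'
  kah : Kah X'
  bim : ∃ A, IsBim X' X π A
  proj : ∃ A, IsLBx X' A ∧ RelAmple X' X π A
  prime : ∀ u, IsPrime X' (P u)
  inj : Function.Injective P
  str : ∀ t, π '' P (.inl t) = Q t
  exc : ∀ u, DimLe X 2 (π '' P (.inr u))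
  μ_nonneg : ∀ j, 0 ≤ μ j
  r_pos : ∀ j, 1 ≤ r j
  cart : ∀ j, IsCart X' P (n j) (N j) (τ j)
  nef : ∀ j, NefX X' (N j)

/-- the coefficients of `B + M_X`, where `M_X = π_* M'` -/
def GP.d {X : CSp} {s : ℕ} {Q : Fin s → Set X.pt} (G : GP X Q) (t : Fin s) : ℝ :=
  G.b t + ∑ j, G.μ j * G.n j (.inl t) / G.r j

/-- All the coefficients of `Δ_W = p^* (K_X + B + M_X) - K_W - M_W` have the property `S`, on all
resolutions `p = π ∘ q : W → X' → X`. The coefficient of a prime divisor is computed at a general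
point `g z`, where the divisor has the equation `ζ = 0` in the chart `g`: `κ`, `o t`, `ν j` are the
orders of the pull backs of the local generators of `m K_X`, `c t • Q t`, `r j • M' j`. -/
def GP.Coef {X : CSp} {s : ℕ} {Q : Fin s → Set X.pt} (G : GP X Q) (S : ℝ → Prop) : Prop :=
  ∃ C : QC X Q, ∀ (W : CSp) (q : W.pt → G.X'.pt), (∀ w, IsReg 4 W w) →
    (∃ A, IsBim W G.X' q A) → ∀ g z ζ, IsCh W g z → Eqn ζ z →
    (∀ᶠ w in 𝓝 z, ζ w ≠ 0 → IsReg 4 X (G.π (q (g w))) ∧ (∀ t, G.π (q (g w)) ∉ Q t) ∧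
      ∀ u, q (g w) ∉ G.P u) →
    ∀ (i : C.K.ι) (a : ∀ t, (C.L t).ι) (l : ∀ j, (G.N j).ι), G.π (q (g z)) ∈ C.K.U i →
    (∀ t, G.π (q (g z)) ∈ (C.L t).U (a t)) → (∀ j, q (g z) ∈ (G.N j).U (l j)) →
    ∀ (κ : ℤ) (o : Fin s → ℤ) (ν : Fin G.k → ℤ),
    Ord (C.η i fun w => G.π (q (g w))) ζ z κ →
    (∀ t, Ord (fun w => C.σ t (a t) (G.π (q (g w)))) ζ z (o t)) →
    (∀ j, Ord (fun w => G.τ j (l j) (q (g w))) ζ z (ν j)) →
    S (-(κ : ℝ) / C.m + ∑ t, G.d t * o t / C.c t - ∑ j, G.μ j * ν j / G.r j)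

/-- generalized lc -/
def GP.Glc {X : CSp} {s : ℕ} {Q : Fin s → Set X.pt} (G : GP X Q) : Prop := G.Coef (· ≤ 1)

/-- generalized klt -/
def GP.Gklt {X : CSp} {s : ℕ} {Q : Fin s → Set X.pt} (G : GP X Q) : Prop := G.Coef (· < 1)

/-- `X → Z ← X'` is a flip of `D = K_X + ∑ t, d t • Q t`, and `Q' t` is the strict transform of
`Q t`. -/
structure Flip (X Z X' : CSp) (f : X.pt → Z.pt) (f' : X'.pt → Z.pt) {s : ℕ}
    (Q : Fin s → Set X.pt) (Q' : Fin s → Set X'.pt) (d : Fin s → ℝ) : Prop where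
  normal : IsNormal 4 Z
  kah : Kah Z
  small : Small X Z f
  small' : Small X' Z f'
  str : ∀ t, f '' Q t = f' '' Q' t
  ample : DAmple X Z f Q (-1) (-d)
  ample' : DAmple X' Z f' Q' 1 d

end Vale.Agent.P277Z.St
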