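import Vale.Agent.P277Z.St.Sk
import Vale.Agent.P277Z.Glc.Regen
import Vale.Agent.P277Z.Glc.BIso
import Vale.Agent.P277Z.Glc.Loc
import Vale.Agent.P277Z.Glc.Sing

/-!
# P277: line bundles under small maps (ISO), change of the bundles (TRF) and generators (REGENZ)
-/

open scoped Topology
open Vale.Agent.P277 hiding Amin IsFlipR
open Vale.Agent.P272.K Vale.Agent.P285.H281.FD Vale.Agent.P277.HD Set Filter Function
open Vale.Agent.P277Z.Glc

noncomputable section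

namespace Vale.Agent.P277Z.St

variable {X Z X' : CSp} {g g₁ : Cm 4 → X.pt} {z z₁ : Cm 4}

theorem IsCh.eventually (h : IsCh X g z) : ∀ᶠ w in 𝓝 z, IsCh X g w := by
  obtain ⟨h1, V, Ω, k, φ, h2, M, h3⟩ := h
  filter_upwards [h1.eventually, h1.1.eventually (M.isOpen.mem_nhds h2), h3.eventually_nhds]
    with w a b c using ⟨a, V, Ω, k, φ, b, M, c⟩

theorem IsCh.inv (h : IsCh X g z) : ∃ φ : X.pt → Cm 4, φ (g z) = z ∧ Tendsto φ (𝓝 (g z)) (𝓝 z) ∧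
    (∀ᶠ y in 𝓝 (g z), g (φ y) = y) ∧ ∀ u, AnalyticAt ℂ u z → X.Hol (fun y => u (φ y)) (g z) := by
  obtain ⟨h1, V, Ω, k, φ, h2, M, h3⟩ := h
  have e := h3.self_of_nhds
  have c : Tendsto φ (𝓝 (g z)) (𝓝 z) := (M.continuousAt h2).tendsto.trans_eq (by rw [e])
  refine ⟨φ, e, c, ?_, fun u hu => (M.hol _ h2 _).2 ⟨u, e.symm ▸ hu, EventuallyEq.rfl⟩⟩
  filter_upwards [M.isOpen.mem_nhds h2, c.eventually h3,
    (h1.1.tendsto.comp c).eventually (M.isOpen.mem_nhds h2)] with y a b d using M.injOn d a b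

theorem IsCh.trans (h : IsCh X g z) (h₁ : IsCh X g₁ z₁) (e : g₁ z₁ = g z) :
    ∃ τ : Cm 4 → Cm 4, AnalyticAt ℂ τ z₁ ∧ τ z₁ = z ∧ ∀ᶠ w in 𝓝 z₁, g₁ w = g (τ w) := by
  obtain ⟨φ, k1, -, k3, k4⟩ := h.inv
  rw [← e] at k1 k3 k4
  exact ⟨fun w => φ (g₁ w), AnalyticAt.pi fun a => h₁.1.analyticAt (k4 _
    ((ContinuousLinearMap.proj (R := ℂ) (φ := fun _ : Fin 4 => ℂ) a).analyticAt _)), k1,
    (h₁.1.1.eventually k3).mono fun _ => Eq.symm⟩

theorem exists_isCh {x : X.pt} (h : IsReg 4 X x) : ∃ g z, IsCh X g z ∧ g z = x := by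
  obtain ⟨V, Ω, k, φ, hx, M⟩ := h
  have : Nonempty X.pt := ⟨x⟩
  have h1 : ∀ᶠ w in 𝓝 (φ x), invFunOn φ V w ∈ V ∧ φ (invFunOn φ V w) = w := by
    filter_upwards [M.isOpen'.mem_nhds (M.image.subset ⟨x, hx, rfl⟩).1] with w hw
    exact invFunOn_pos (M.image.superset ⟨hw, fun i => i.elim0⟩)
  refine ⟨invFunOn φ V, φ x, ⟨holAt_of_coord M.isCoord (h1.mono fun _ h => h.1) fun a => ?_, V, Ω,
    k, φ, h1.self_of_nhds.1, M, h1.mono fun _ h => h.2⟩, M.injOn.leftInvOn_invFunOn hx⟩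
  refine ((ContinuousLinearMap.proj (R := ℂ) (φ := fun _ : Fin 4 => ℂ) a).analyticAt _).congr ?_
  filter_upwards [h1] with w hw
  rw [hw.2]
  rfl

theorem pull_model {O : Set X'.pt} {σ : X'.pt → X.pt} (H : LocIso X' X O σ) {V : Set X.pt}
    {N k : ℕ} {Ω : Set (Cm N)} {h : Fin k → Cm N → ℂ} {φ : X.pt → Cm N}
    (M : IsModel X.Hol V Ω h φ) : ∃ Ω', IsModel X'.Hol (O ∩ σ ⁻¹' V) Ω' h (φ ∘ σ) := by
  have h1 := H.cont.isOpen_inter_preimage H.isOpen M.isOpen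
  obtain ⟨Ω', M'⟩ := isModel_mono M (H.openMap _ inter_subset_left h1)
    (image_subset_iff.2 inter_subset_right)
  refine ⟨Ω', h1, M'.isOpen', M'.holo, by rw [image_comp, M'.image], ?_, fun x hx f => ?_⟩
  · refine M'.emb.comp ((Topology.IsOpenEmbedding.of_continuous_injective_isOpenMap
      (f := (O ∩ σ ⁻¹' V).domRestrict σ)
      (continuousOn_iff_continuous_domRestrict.1 (H.cont.mono inter_subset_left))
      (H.inj.mono inter_subset_left).injective fun U hU => ?_).isEmbedding.codRestrict _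
      fun y => mem_image_of_mem σ y.2)
    have := H.openMap (Subtype.val '' U) (by rintro _ ⟨y, -, rfl⟩; exact y.2.1)
      (h1.isOpenMap_subtype_val U hU)
    rwa [image_image] at this
  · have : Nonempty X'.pt := ⟨x⟩
    obtain ⟨j, hj, -⟩ := H.exists_inv
    have e : f =ᶠ[𝓝 x] (f ∘ j) ∘ σ := by
      filter_upwards [H.isOpen.mem_nhds hx.1] with y hy using congrArg f (hj y hy).symm
    rw [← hol_congr_iff e, ← H.hol x hx.1, M.hol _ hx.2, ← H.map_nhds hx.1]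
    refine exists_congr fun G => and_congr_right fun _ => ?_
    rw [eventuallyEq_map]
    exact ⟨e.trans, e.symm.trans⟩

variable {f : X.pt → Z.pt} {f' : X'.pt → Z.pt} {A : Set Z.pt}

theorem holMap_flip (hs : IsSmall X Z f A) (hs' : IsSmall X' Z f' A) {x : X.pt} (hx : f x ∉ A) :
    HolMap X X' (fun y => hs'.sec (f y)) x :=
  ⟨(hs'.holMap_sec hx).1.comp hs.cont.continuousAt,
    fun g hg => hs.holo x _ ((hs'.holMap_sec hx).2 g hg)⟩

theorem near_off (hs : IsSmall X Z f A) {x : X.pt} (hx : f x ∉ A) : ∀ᶠ y in 𝓝 x, f y ∉ A :=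
  hs.cont.continuousAt.eventually_mem (hs.isClosed.isOpen_compl.mem_nhds hx)

theorem IsCh.flip (h : IsCh X g z) (hs : IsSmall X Z f A) (hs' : IsSmall X' Z f' A)
    (hz : f (g z) ∉ A) : IsCh X' (fun w => hs'.sec (f (g w))) z := by
  obtain ⟨h1, V, Ω, k, φ, h2, M, h3⟩ := h
  obtain ⟨Ω', M'⟩ := pull_model (((locIso_of_small hs).symm fun _ => hs.sec_apply).comp
    (locIso_of_small hs') fun x hx => ⟨hs.sec (f' x), by rwa [mem_preimage, hs.sec_eq],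
      hs.sec_eq _⟩) M
  refine ⟨h1.holMap (holMap_flip hs hs' hz), _, Ω', k, _, mem_inter ?_ ?_, M', ?_⟩
  · rwa [mem_preimage, hs'.sec_eq]
  · rwa [mem_preimage, comp_apply, hs'.sec_eq, hs.sec_apply hz]
  · filter_upwards [h3, h1.1.eventually (near_off hs hz)] with w a b
    rw [comp_apply, comp_apply, hs'.sec_eq, hs.sec_apply b, a]

/-- extension of a unit -/
theorem ext_unit (hX : IsNormal 4 X) {V D E : Set X.pt} (hV : IsOpen V) (hD : Dense Dᶜ)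
    (hE : IsAn X univ E) (hd : DimLe X 2 E) {T : X.pt → ℂ}
    (h : ∀ x ∈ V \ E, ∃ u, X.Hol u x ∧ u x ≠ 0 ∧ ∀ᶠ y in 𝓝 x, y ∉ D → T y = u y) :
    ∃ G, (∀ x ∈ V, X.Hol G x ∧ G x ≠ 0) ∧ ∀ x ∈ V \ E, x ∉ D → G x = T x := by
  choose! u h1 h2 h3 using h
  have h4 : ∀ x ∈ V \ E, X.Hol (fun y => u y y) x := fun x hx => by
    refine hol_congr (h1 x hx) ?_
    filter_upwards [(hV.sdiff (isClosed_of_isAn hE)).mem_nhds hx, hol_eventually (h1 x hx),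
      (h3 x hx).eventually_nhds] with y a b c
    refine (eventuallyEq_of_dense hD (h1 y a) b ?_).self_of_nhds
    filter_upwards [c, h3 y a] with w k1 k2 k3 using (k2 k3).symm.trans (k1 k3)
  obtain ⟨G, k1, k2⟩ := hX.ext V E hV (hE.mono (subset_univ _)) (hd.mono inter_subset_right) _ h4
  obtain ⟨H, k3, k4⟩ := hX.ext V E hV (hE.mono (subset_univ _)) (hd.mono inter_subset_right) _
    fun x hx => hol_inv (h4 x hx) (h2 x hx)
  refine ⟨G, fun x hx => ⟨k1 x hx, left_ne_zero_of_mul_eq_one (eventuallyEq_of_dense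
    (dense_compl_of_dimLe (by simp) hX.dense hd) (hol_mul (k1 x hx) (k3 x hx)) (hol_const 1 x)
    ?_).self_of_nhds⟩, fun x hx hx' => (k2 x hx).trans ((h3 x hx).self_of_nhds hx').symm⟩
  filter_upwards [hV.mem_nhds hx] with y a b
  rw [k2 y ⟨a, b⟩, k4 y ⟨a, b⟩, mul_inv_cancel₀ (h2 y ⟨a, b⟩)]

theorem ext_iso (hX : IsNormal 4 X) (hs : IsSmall X Z f A) (hs' : IsSmall X' Z f' A) {M : Bd X.pt}
    {M' : Bd X'.pt} (hM : IsLBx X M) (hM' : IsLBx X' M') {D E : Set X.pt} (hD : Dense Dᶜ)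
    (hE : IsAn X univ E) (hd : DimLe X 2 E) (T : M.ι → M'.ι → X.pt → ℂ)
    (h1 : ∀ i j x, f x ∉ A → x ∈ M.U i → hs'.sec (f x) ∈ M'.U j → x ∉ E →
      ∃ u, X.Hol u x ∧ u x ≠ 0 ∧ ∀ᶠ y in 𝓝 x, y ∉ D → T i j y = u y)
    (h2 : ∀ i i₁ j j₁ x, f x ∉ A → x ∉ D → x ∈ M.U i → x ∈ M.U i₁ → hs'.sec (f x) ∈ M'.U j →
      hs'.sec (f x) ∈ M'.U j₁ → T i₁ j₁ x = M.g i i₁ x * T i j x * M'.g j₁ j (hs'.sec (f x))) :
    ∃ t, IsIso f f' A M M' t := by
  have h3 : ∀ i j, IsOpen {x | f x ∉ A ∧ x ∈ M.U i ∧ hs'.sec (f x) ∈ M'.U j} := fun i j =>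
    isOpen_iff_eventually.2 fun x hx => (near_off hs hx.1).and
      (((hM.isOpen i).eventually_mem hx.2.1).and
        ((holMap_flip hs hs' hx.1).1.eventually_mem ((hM'.isOpen j).mem_nhds hx.2.2)))
  choose G k1 k2 using fun i j => ext_unit hX (h3 i j) hD hE hd
    fun x hx => h1 i j x hx.1.1 hx.1.2.1 hx.1.2.2 hx.2
  have h4 : ∀ x x', f x ∉ A → f' x' = f x → x' = hs'.sec (f x) := fun x x' hx e => by
    rw [← e, hs'.sec_apply (e ▸ hx)]
  refine ⟨fun i j z => G i j (hs.sec z), fun x x' i j hx e hi hj => ?_,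
    fun x x' i i₁ j j₁ hx e hi hi₁ hj hj₁ => ?_⟩
  · obtain rfl := h4 x x' hx e
    have := k1 i j x ⟨hx, hi, hj⟩
    rw [← hs.sec_apply hx] at this
    exact ⟨(hs.hol_sec_iff hx).1 this.1, this.2⟩
  · obtain rfl := h4 x x' hx e
    rw [hs.sec_apply hx]
    refine (eventuallyEq_of_dense (hD.inter_of_isOpen_right
      (dense_compl_of_dimLe (by simp) hX.dense hd) (isClosed_of_isAn hE).isOpen_compl)
      (k1 i₁ j₁ x ⟨hx, hi₁, hj₁⟩).1 (hol_mul (hol_mul (hM.holo i i₁ x hi hi₁)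
        (k1 i j x ⟨hx, hi, hj⟩).1) ((holMap_flip hs hs' hx).2 _ (hM'.holo j₁ j _ hj₁ hj)))
      ?_).self_of_nhds
    filter_upwards [(h3 i j).mem_nhds ⟨hx, hi, hj⟩, (h3 i₁ j₁).mem_nhds ⟨hx, hi₁, hj₁⟩] with y a b c
    rw [k2 i j y ⟨a, c.2⟩ c.1, k2 i₁ j₁ y ⟨b, c.2⟩ c.1]
    exact h2 i i₁ j j₁ y a.1 c.1 a.2.1 b.2.1 a.2.2 b.2.2

theorem iso_can (hX : IsNormal 4 X) (hs : IsSmall X Z f A) (hs' : IsSmall X' Z f' A) {m m' : ℕ}
    {K : Bd X.pt} {K' : Bd X'.pt} {η : K.ι → (Cm 4 → X.pt) → Cm 4 → ℂ}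
    {η' : K'.ι → (Cm 4 → X'.pt) → Cm 4 → ℂ} (h : IsCan X m K η) (h' : IsCan X' m' K' η') :
    ∃ t, IsIso f f' A (K.pow m') (K'.pow m) t := by
  have := hX.sing.nonempty
  choose! G ζ h1 h2 using fun x (hx : x ∉ {x | ¬ IsReg 4 X x}) => exists_isCh (not_not.1 hx)
  refine ext_iso hX hs hs' (lb_pow h.lb _) (lb_pow h'.lb _) (D := {x | ¬ IsReg 4 X x})
    (hX.dense.mono fun _ => not_not.2) (sing_an hX.dense) hX.sing
    (fun i j x => η i (G x) (ζ x) ^ m' / η' j (fun w => hs'.sec (f (G x w))) (ζ x) ^ m)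
    (fun i j x hx hi hj hE => ?_) fun i i₁ j j₁ x hx hD hi hi₁ hj hj₁ => ?_
  · obtain ⟨g, z, hg, rfl⟩ := exists_isCh (not_not.1 hE)
    obtain ⟨φ, k1, k2, k3, k4⟩ := hg.inv
    have a := h.an i g z hg hi
    have b := h'.an j _ z (hg.flip hs hs' hx) hj
    refine ⟨_, k4 _ ((a.2.fun_pow m').fun_div (b.2.fun_pow m) (pow_ne_zero _ b.1)),
      by rw [k1]; exact div_ne_zero (pow_ne_zero _ a.1) (pow_ne_zero _ b.1), ?_⟩
    filter_upwards [k3, k2.eventually hg.eventually, near_off hs hx, (h.lb.isOpen i).mem_nhds hi,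
      (holMap_flip hs hs' hx).1.eventually_mem ((h'.lb.isOpen j).mem_nhds hj)] with y c d l1 l2 l3 l4
    obtain ⟨τ, t1, t2, t3⟩ := d.trans (h1 y l4) ((h2 y l4).trans c.symm)
    rw [← c] at l1 l2 l3
    have e1 := h.comp i g (G y) τ _ t1 (t2 ▸ d) (t2 ▸ l2) t3
    have e2 := h'.comp j (fun w => hs'.sec (f (g w))) (fun w => hs'.sec (f (G y w))) τ _ t1
      (t2 ▸ d.flip hs hs' l1) (t2 ▸ l3) (t3.mono fun w hw => by rw [hw])
    have e3 := (h.an i _ _ (h1 y l4) (by rwa [h2 y l4, ← c])).1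
    rw [e1] at e3
    rw [e1, e2, t2, mul_pow, mul_pow, pow_right_comm _ m',
      mul_div_mul_right _ _ (pow_ne_zero _ (right_ne_zero_of_mul e3))]
  · have a := h1 x hD
    have e := h2 x hD
    have e1 := h.change i i₁ _ _ a (by rwa [e]) (by rwa [e])
    have e2 := h'.change j₁ j _ _ (a.flip hs hs' (by rwa [e])) (by rwa [e]) (by rwa [e])
    have e3 := pow_ne_zero m (h'.lb.ne_zero j₁ j _ hj₁ hj)
    rw [e] at e1 e2
    change _ = K.g i i₁ x ^ m' * _ * K'.g j₁ j _ ^ m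
    rw [e1, e2, mul_pow, mul_pow, mul_div_assoc, mul_assoc, div_mul_eq_div_div_swap,
      div_mul_cancel₀ _ e3]

variable {ι : Type} [Finite ι] {Q : ι → Set X.pt} {S : Set X.pt}

theorem Divs.loc (h : Divs X Q S) {t : ι} {x : X.pt} (hx : x ∈ Q t) (hS : x ∉ S) :
    ∃ g z ζ, IsCh X g z ∧ g z = x ∧ Eqn ζ z ∧
      ∀ᶠ w in 𝓝 z, ∀ t', g w ∈ Q t' ↔ t' = t ∧ ζ w = 0 := by
  obtain ⟨⟨g, z, ζ, h1, rfl, h2, h3⟩, h4⟩ := h.hyp t x hx hS
  refine ⟨g, z, ζ, h1, rfl, h2, eventually_all.2 fun t' => ?_⟩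
  by_cases e : t' = t
  · simpa only [e, true_and] using h3
  · filter_upwards [h1.1.1.eventually_mem
      ((isClosed_of_isAn (h.an t')).isOpen_compl.mem_nhds (h4 t' e))] with w hw
    exact iff_of_false hw fun k => e k.1

theorem Divs.dense (h : Divs X Q S) (hX : IsNormal 4 X) : Dense (⋃ t, Q t)ᶜ := by
  refine dense_closure.1 ((dense_compl_of_dimLe (by simp) hX.dense h.dim).mono fun x hx => ?_)
  by_cases k : x ∈ ⋃ t, Q t
  · obtain ⟨t, ht⟩ := mem_iUnion.1 k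
    obtain ⟨g, z, ζ, h1, rfl, h2, h3⟩ := h.loc ht hx
    have h4 : ∃ᶠ w in 𝓝 z, ζ w ≠ 0 := fun h5 => h2.2.2 (by
      rw [EventuallyEq.fderiv_eq (f := fun _ => 0) (h5.mono fun _ => not_not.1), fderiv_fun_const]
      rfl)
    refine mem_closure_of_frequently_of_tendsto ((h4.and_eventually h3).mono fun w hw k => ?_) h1.1.1
    obtain ⟨t', ht'⟩ := mem_iUnion.1 k
    exact hw.1 ((hw.2 t').1 ht').2
  · exact subset_closure k

theorem iso_cart (hX : IsNormal 4 X) (hs : IsSmall X Z f A) (hs' : IsSmall X' Z f' A)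
    {Q' : ι → Set X'.pt} (hQ : Divs X Q S) (hQ' : ∀ t, f '' Q t = f' '' Q' t) {n n' : ι → ℤ}
    {c c' : ℕ} (hn : ∀ t, n t * c' = n' t * c) {L : Bd X.pt} {L' : Bd X'.pt} {σ : L.ι → X.pt → ℂ}
    {σ' : L'.ι → X'.pt → ℂ} (h : IsCart X Q n L σ) (h' : IsCart X' Q' n' L' σ') :
    ∃ t, IsIso f f' A (L.pow c') (L'.pow c) t := by
  have h1 : ∀ x t, f x ∉ A → (hs'.sec (f x) ∈ Q' t ↔ x ∈ Q t) := fun x t hx =>
    ⟨fun k => by
      obtain ⟨y, hy, e⟩ := (hQ' t).superset ⟨_, k, hs'.sec_eq _⟩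
      exact hs.inj x y hx e ▸ hy, fun k => by
      obtain ⟨y, hy, e⟩ := (hQ' t).subset ⟨_, k, rfl⟩
      rwa [← e, hs'.sec_apply (e ▸ hx)]⟩
  have h2 : ∀ x, f x ∉ A → x ∉ ⋃ t, Q t → hs'.sec (f x) ∉ ⋃ t, Q' t := fun x hx k k' =>
    k (by simpa only [mem_iUnion, h1 x _ hx] using k')
  refine ext_iso hX hs hs' (lb_pow h.lb _) (lb_pow h'.lb _) (hQ.dense hX) hQ.anS hQ.dim
    (fun i j x => σ' j (hs'.sec (f x)) ^ c / σ i x ^ c')
    (fun i j x hx hi hj hE => ?_) fun i i₁ j j₁ x hx hD hi hi₁ hj hj₁ => ?_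
  · by_cases k : x ∈ ⋃ t, Q t
    · obtain ⟨t, ht⟩ := mem_iUnion.1 k
      obtain ⟨g, z, ζ, k1, rfl, k2, k3⟩ := hQ.loc ht hE
      obtain ⟨u, a1, a2, a3⟩ := h.ord t i g z ζ k1 hi k2 k3
      obtain ⟨u', b1, b2, b3⟩ := h'.ord t j _ z ζ (k1.flip hs hs' hx) hj k2 (by
        filter_upwards [k3, k1.1.1.eventually (near_off hs hx)] with w l1 l2 t'
        rw [h1 _ _ l2, l1])
      obtain ⟨φ, c1, c2, c3, c4⟩ := k1.inv
      refine ⟨_, c4 _ ((b1.fun_pow c).fun_div (a1.fun_pow c') (pow_ne_zero _ a2)),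
        by rw [c1]; exact div_ne_zero (pow_ne_zero _ b2) (pow_ne_zero _ a2), ?_⟩
      filter_upwards [c3, c2.eventually k3, c2.eventually a3, c2.eventually b3] with y d1 d2 d3 d4 d5
      have d6 : ζ (φ y) ≠ 0 := fun e => d5 (mem_iUnion.2 ⟨t, d1 ▸ (d2 t).2 ⟨rfl, e⟩⟩)
      rw [d1] at d3 d4
      rw [d3 d6, d4 d6, mul_pow, mul_pow, ← zpow_natCast (_ ^ n t), ← zpow_natCast (_ ^ n' t),
        ← zpow_mul, ← zpow_mul, hn, mul_div_mul_right _ _ (zpow_ne_zero _ d6)]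
    · have a := pow_ne_zero c' (h.ne i x hi k)
      exact ⟨_, hol_div (hol_pow ((holMap_flip hs hs' hx).2 _ (h'.sec.holo j _ (h2 x hx k) hj)) c)
        (hol_pow (h.sec.holo i x k hi) c') a,
        div_ne_zero (pow_ne_zero _ (h'.ne j _ hj (h2 x hx k))) a, .of_forall fun _ _ => rfl⟩
  · have e3 := pow_ne_zero c' (h.lb.ne_zero i i₁ _ hi hi₁)
    change _ = L.g i i₁ x ^ c' * _ * L'.g j₁ j _ ^ c
    rw [h.sec.change i i₁ x hD hi hi₁, h'.sec.change j₁ j _ (h2 x hx hD) hj₁ hj, mul_pow, mul_pow,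
      div_mul_eq_div_div_swap, mul_div_cancel₀ _ e3, mul_div_assoc, mul_comm]

theorem iso : StIso := by
  intro X Z X' f f' A s Q Q' S S' C C' hX _ hs hs' hQ _ hQ' e
  refine Fin.cases (iso_can hX hs hs' C.can C'.can) (fun t => iso_cart hX hs hs' hQ hQ'
    (c := C.c t) (c' := C'.c t) (fun t' => ?_) (C.cart t) (C'.cart t)) e
  by_cases k : t' = t
  · rw [k, Pi.single_eq_same, Pi.single_eq_same, mul_comm]
  · rw [Pi.single_eq_of_ne k, Pi.single_eq_of_ne k, zero_mul, zero_mul]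

/-- products of powers of isomorphisms -/
theorem isIso_lin {k : ℕ} {L : Fin k → Bd X.pt} {L' : Fin k → Bd X'.pt} {p q : Fin k → ℕ}
    {t : ∀ e, (L e).ι → (L' e).ι → Z.pt → ℂ}
    (ht : ∀ e, IsIso f f' A ((L e).pow (p e)) ((L' e).pow (q e)) (t e)) (m m' r : Fin k → ℤ)
    (P Q : ℕ) (h : ∀ e, m e * P = p e * r e) (h' : ∀ e, m' e * Q = q e * r e) :
    IsIso f f' A ((HD.Bd.lin L m).pow P) ((HD.Bd.lin L' m').pow Q)
      (fun i j z => ∏ e, t e (i e) (j e) z ^ r e) where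
  holo x x' i j hA hx hi hj :=
    have k := fun e => (ht e).holo x x' _ _ hA hx (hi e) (hj e)
    ⟨hol_prod Finset.univ fun e _ => Rg.hol_zpow (k e).1 (k e).2 _,
      Finset.prod_ne_zero_iff.2 fun e _ => zpow_ne_zero _ (k e).2⟩
  change x x' i i₁ j j₁ hA hx hi hi₁ hj hj₁ := by
    change (∏ e, t e (i₁ e) (j₁ e) (f x) ^ r e) =
      (∏ e, (L e).g (i e) (i₁ e) x ^ m e) ^ P * (∏ e, t e (i e) (j e) (f x) ^ r e) *
        (∏ e, (L' e).g (j₁ e) (j e) x' ^ m' e) ^ Q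
    rw [← Finset.prod_pow, ← Finset.prod_pow, ← Finset.prod_mul_distrib,
      ← Finset.prod_mul_distrib]
    refine Finset.prod_congr rfl fun e _ => ?_
    have e1 : t e (i₁ e) (j₁ e) (f x) = (L e).g (i e) (i₁ e) x ^ p e * t e (i e) (j e) (f x) *
        (L' e).g (j₁ e) (j e) x' ^ q e :=
      (ht e).change x x' _ _ _ _ hA hx (hi e) (hi₁ e) (hj e) (hj₁ e)
    simp only [e1, ← zpow_natCast, ← zpow_mul, h e, h' e, mul_zpow]

theorem triv_of_iso {M M' N : Bd X.pt} (hM : IsLBx X M) (hM' : IsLBx X M') (hN : IsLBx X N)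
    {P : ℕ} {t} (ht : IsIso (X := X) (Z := X) (X' := X) id id ∅ (M.pow P) (M'.pow 1) t)
    (h : IsTriv X (M.mul (Bd.inv N))) : IsTriv X (M'.mul (Bd.inv (N.pow P))) := by
  obtain ⟨s, hs, h0⟩ := h
  choose J hJ using hM.cover
  have key : ∀ i i₁ j j₁ a a₁ y, y ∈ M.U i → y ∈ M.U i₁ → y ∈ M'.U j → y ∈ M'.U j₁ → y ∈ N.U a →
      y ∈ N.U a₁ → s (i₁, a₁) y ^ P * t i₁ j₁ y =
        M'.g j₁ j y * (N.g a₁ a y ^ P)⁻¹ * (s (i, a) y ^ P * t i j y) := by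
    intro i i₁ j j₁ a a₁ y hi hi₁ hj hj₁ ha ha₁
    have e1 : s (i₁, a₁) y = M.g i₁ i y * (N.g a₁ a y)⁻¹ * s (i, a) y :=
      hs.change (i₁, a₁) (i, a) y trivial ⟨hi₁, ha₁⟩ ⟨hi, ha⟩
    have e2 : t i₁ j₁ y = M.g i i₁ y ^ P * t i j y * M'.g j₁ j y ^ 1 :=
      ht.change y y i i₁ j j₁ id rfl hi hi₁ hj hj₁
    have e3 : M.g i₁ i y ^ P * M.g i i₁ y ^ P = 1 := by
      rw [← mul_pow, lb_symm hM hi₁ hi, one_pow]
    rw [e1, e2, mul_pow, mul_pow, inv_pow]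
    linear_combination (N.g a₁ a y ^ P)⁻¹ * s (i, a) y ^ P * t i j y * M'.g j₁ j y * e3
  refine ⟨fun j y => s (J y, j.2) y ^ P * t (J y) j.1 y, ⟨fun j x _ hj => ?_,
    fun j j₁ x _ hj hj₁ => key _ _ _ _ _ _ x (hJ x) (hJ x) hj₁.1 hj.1 hj₁.2 hj.2⟩, fun j x hj =>
      mul_ne_zero (pow_ne_zero _ (h0 _ x ⟨hJ x, hj.2⟩)) (ht.holo x x _ _ id rfl (hJ x) hj.1).2⟩
  refine hol_congr (hol_mul (hol_pow (hs.holo (J x, j.2) x trivial ⟨hJ x, hj.2⟩) P)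
    (ht.holo x x _ _ id rfl (hJ x) hj.1).1) ?_
  filter_upwards [(hM.isOpen _).mem_nhds (hJ x), (hM'.isOpen _).mem_nhds hj.1,
    (hN.isOpen _).mem_nhds hj.2] with y a b c
  rw [key _ _ _ _ _ _ y a (hJ y) b b c c, lb_self hM' b, lb_self hN c, one_pow, inv_one, one_mul,
    one_mul]

theorem trf : StTrf := by
  rintro X Z f k L L' c c' ρ hc hc' hL hL' ht ⟨q, A, x, h1, b, n, ν, y, h2, h3, h4⟩
  choose t ht using ht
  choose u hu using fun e => Finset.dvd_prod_of_mem c' (Finset.mem_univ e)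
  have hC : ((∏ e, c' e : ℕ) : ℝ) ≠ 0 :=
    Nat.cast_ne_zero.2 (Finset.prod_ne_zero_iff.2 fun e _ => Nat.one_le_iff_ne_zero.1 (hc' e))
  refine ⟨q, A, x, h1, b, fun β e => c e * (n β e * u e), fun β a => ν β a * (∏ e, c' e : ℕ),
    fun β => y β / (∏ e, c' e : ℕ), fun β => ?_, fun e => ?_, fun a => ?_⟩
  · obtain ⟨s, k1, k2⟩ := triv_of_iso (Rg.lin_lb hL _) (Rg.lin_lb hL' _)
      (Rg.lin_lb (fun a => (h1 a).2.1) _) (isIso_lin ht (n β) (fun e => c e * (n β e * u e))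
        (fun e => n β e * u e) (∏ e, c' e) 1 (fun e => by rw [hu e]; push_cast; ring)
        fun e => by simp) (h2 β)
    refine ⟨s, ⟨k1.holo, fun i j x hx hi hj => (k1.change i j x hx hi hj).trans ?_⟩, k2⟩
    change _ * ((∏ a, (A a).g (i.2 a) (j.2 a) x ^ ν β a) ^ _)⁻¹ * _ =
      _ * (∏ a, (A a).g (i.2 a) (j.2 a) x ^ (ν β a * (∏ e, c' e : ℕ)))⁻¹ * _
    simp only [← Finset.prod_pow, zpow_mul, zpow_natCast]
  · have a1 : (c e : ℝ) ≠ 0 := Nat.cast_ne_zero.2 (Nat.one_le_iff_ne_zero.1 (hc e))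
    beta_reduce
    rw [(div_eq_iff a1).1 (h3 e), Finset.sum_mul, Finset.sum_div]
    refine Finset.sum_congr rfl fun β _ => ?_
    rw [hu e, Nat.cast_mul] at hC ⊢
    have a2 := left_ne_zero_of_mul hC
    have a3 := right_ne_zero_of_mul hC
    push_cast
    field_simp
  · rw [h4 a]
    refine Finset.sum_congr rfl fun β _ => ?_
    rw [Int.cast_mul, Int.cast_natCast]
    field_simp

theorem nearZ {k k' : ℕ} (R : Fin k' → Fin k → ℤ) (x : Fin k' → ℝ) (c : Fin k → ℕ) {ε : ℝ}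
    (hε : 0 < ε) (n : Fin k' → ℤ) (d : ℕ)
    (h : ∀ a, |(n a * (∏ e, c e : ℕ) : ℝ) / d - x a| < ε / (1 + ∑ e, ∑ a, |(R a e : ℝ)|))
    (e : Fin k) : |(((∑ a, R a e * (((∏ e', c e') / c e : ℕ) : ℤ) * n a : ℤ) : ℝ) * c e) / d -
      ∑ a, x a * R a e| < ε := by
  have hd : ((((∏ e', c e') / c e : ℕ) : ℝ)) * c e = ((∏ e', c e' : ℕ) : ℝ) := by
    exact_mod_cast Nat.div_mul_cancel (Finset.dvd_prod_of_mem _ (Finset.mem_univ e))
  have hle : ∑ a, |(R a e : ℝ)| < 1 + ∑ e, ∑ a, |(R a e : ℝ)| :=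
    lt_one_add _ |>.trans_le (add_le_add_right (Finset.single_le_sum
      (f := fun e => ∑ a, |(R a e : ℝ)|)
      (fun _ _ => Finset.sum_nonneg fun _ _ => abs_nonneg _) (Finset.mem_univ e)) _)
  rw [Int.cast_sum, Finset.sum_mul, Finset.sum_div, ← Finset.sum_sub_distrib]
  refine ((Finset.abs_sum_le_sum_abs _ _).trans (Finset.sum_le_sum fun a _ => ?_)).trans_lt
    ((Finset.mul_sum _ _ _).symm.trans_lt ((mul_lt_mul_of_pos_left hle
      (show 0 < ε / (1 + ∑ e, ∑ a, |(R a e : ℝ)|) by positivity)).trans_eq (by field_simp)))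
  refine le_trans (le_of_eq ?_) (mul_le_mul_of_nonneg_right (h a).le (abs_nonneg _))
  rw [← abs_mul, ← hd, Int.cast_mul, Int.cast_mul, Int.cast_natCast]
  exact congrArg _ (by ring)

open Rg in
theorem regenZ_flip : StRegenZ := by
  intro k k' R x X Z X' f f' A L L' c c' hc hc' h
  have hC : 1 ≤ ∏ e, c e := Finset.one_le_prod' fun e _ => hc e
  have hC' : 1 ≤ ∏ e, c' e := Finset.one_le_prod' fun e _ => hc' e
  refine ⟨h.normal, h.normalZ, h.normal', h.small, h.small', h.ninj, h.ninj',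
    fun a => lin_lb h.lb _, fun a => lin_lb h.lb' _, fun a => ?_, ?_, ?_⟩
  · choose p q hp hq hpq t ht using h.iso
    have hW : 1 ≤ ∏ e, c e * p e := Finset.one_le_prod' fun e _ => Nat.mul_pos (hc e) (hp e)
    choose w hw using fun e => Finset.dvd_prod_of_mem (fun e => c e * p e) (Finset.mem_univ e)
    refine ⟨(∏ e, c' e) * ∏ e, c e * p e, (∏ e, c e) * ∏ e, c e * p e, Nat.mul_pos hC' hW,
      Nat.mul_pos hC hW, by ring, _, St.isIso_lin ht _ _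
        (fun e => R a e * ((∏ e, c e) * (∏ e, c' e) * w e : ℕ)) _ _ (fun e => ?_) (fun e => ?_)⟩
    · obtain ⟨u, hu⟩ := Finset.dvd_prod_of_mem c (Finset.mem_univ e)
      rw [hw e, hu, Nat.mul_div_cancel_left _ (hc e)]
      simp only [Nat.cast_mul]
      ring
    · obtain ⟨u, hu⟩ := Finset.dvd_prod_of_mem c' (Finset.mem_univ e)
      rw [hw e, hu, Nat.mul_div_cancel_left _ (hc' e), hpq e]
      simp only [Nat.cast_mul]
      ring
  · obtain ⟨ε, hε, ha⟩ := h.ample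
    refine ⟨ε / (1 + ∑ e, ∑ a, |(R a e : ℝ)|), by positivity, fun n d hd hn => ?_⟩
    exact (lin_lin h.lb (fun a e => R a e * (((∏ e', c e') / c e : ℕ) : ℤ)) n).inv.relAmple
      (lin_lb h.lb 0).isOpen (lin_lb (L := regenZ R L c) (fun a => lin_lb h.lb _) n).isOpen
      (lin_lb h.lb 0).cover h.small.cont (ha _ d hd (nearZ R x c hε n d hn))
  · obtain ⟨ε, hε, ha⟩ := h.ample'
    refine ⟨ε / (1 + ∑ e, ∑ a, |(R a e : ℝ)|), by positivity, fun n d hd hn => ?_⟩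
    exact (lin_lin h.lb' (fun a e => R a e * (((∏ e', c' e') / c' e : ℕ) : ℤ)) n).relAmple
      (lin_lb h.lb' _).isOpen (lin_lb (fun a => lin_lb h.lb' _) n).isOpen (lin_lb h.lb' _).cover
      h.small'.cont (ha _ d hd (nearZ R x c' hε n d hn))

end Vale.Agent.P277Z.St
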