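import Vale.Agent.P277Z.St.First
import Vale.Agent.P277Z.St.Iso
import Vale.Agent.P277Z.St.Ord
import Vale.Agent.P277Z.Val.Fin

/-!
# P277: the bridge, basic facts
-/

open scoped Manifold ContDiff Topology ComplexOrder
open Vale.Agent.P277 hiding Amin IsFlipR
open Vale.Agent.P272.K Vale.Agent.P285.H281.FD Vale.Agent.P277.HD Set Filter
open Vale.Agent.P277.PH (HolF)
open Vale.Agent.P277Z.Val

noncomputable section

namespace Vale.Agent.P277Z.St

variable {X Z X' : CSp}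

theorem small_id [Nonempty X.pt] : IsSmall X X id ∅ :=
  ⟨continuous_id, fun _ _ h => h, Function.surjective_id,
    fun x _ => ⟨1, fun _ _ => 1, fun _ => P277.hol_const 1 x, by simp⟩, dimLe_empty, fun _ _ _ h => h,
    fun _ g _ h => ⟨g, h, EventuallyEq.rfl⟩⟩

variable {s : ℕ} {Q : Fin s → Set X.pt}

theorem QC.idx_pos (C : QC X Q) : ∀ e, 1 ≤ C.idx e := Fin.cases C.m_pos C.c_pos

theorem QC.lb (C : QC X Q) : ∀ e, IsLBx X (C.fam e) := Fin.cases C.can.lb fun t => (C.cart t).lb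

theorem DAmple.any {f : X.pt → Z.pt} {κ : ℝ} {d : Fin s → ℝ}
    {S : Set X.pt} (h : DAmple X Z f Q κ d) (hN : IsNormal 4 X) (hS : Divs X Q S) (C : QC X Q) :
    RAmple X Z f C.fam fun e => (Fin.cons κ d : Fin (s + 1) → ℝ) e / C.idx e := by
  obtain ⟨C', h⟩ := h
  have := hS.dim.nonempty
  refine trf X Z f _ C'.fam C.fam C'.idx C.idx _ C'.idx_pos C.idx_pos C'.lb C.lb
    (iso X X X id id ∅ s Q Q S S C' C hN hN small_id small_id hS hS fun _ => rfl) ?_
  have e : (fun e => (Fin.cons κ d : Fin (s + 1) → ℝ) e / C'.idx e) =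
      Fin.cons (κ / C'.m) fun t => d t / C'.c t := funext (Fin.cases rfl fun _ => rfl)
  rw [e]
  exact h

theorem Flip.isFlipR (hS : StSmall) (hO : StOpen) {f : X.pt → Z.pt}
    {f' : X'.pt → Z.pt} {Q' : Fin s → Set X'.pt} {d : Fin s → ℝ} (h : Flip X Z X' f f' Q Q' d)
    (hN : IsNormal 4 X) (hN' : IsNormal 4 X') {S : Set X.pt} {S' : Set X'.pt} (hD : Divs X Q S)
    (hD' : Divs X' Q' S') (C : QC X Q) (C' : QC X' Q') :
    ∃ A, IsFlipR X Z X' f f' A C.fam C'.fam C.idx C'.idx (Fin.cons 1 d) := by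
  have a := h.ample.any hN hD C
  have a' := h.ample'.any hN' hD' C'
  obtain ⟨_, P, _, hP, -⟩ := id a
  obtain ⟨_, P', _, hP', -⟩ := id a'
  obtain ⟨⟨A, s1, s2⟩, n1, n2⟩ := hS X Z X' f f' _ _ hN h.normal hN' h.small h.small'
    (hP 0).2.1 (hP 0).2.2 (hP' 0).2.1 (hP' 0).2.2
  have key : ∀ {c : ℕ} {x y ε : ℝ}, 1 ≤ c → 0 < ε → |x * c - y| < ε → |x - y / c| < ε := by
    intro c x y ε hc hε h
    have c1 : (1 : ℝ) ≤ c := by exact_mod_cast hc
    have : x - y / c = (x * c - y) / c := by field_simp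
    rw [this, abs_div, abs_of_pos (by linarith : (0 : ℝ) < c), div_lt_iff₀ (by linarith)]
    nlinarith
  refine ⟨A, hN, h.normal, hN', s1, s2, n1, n2, C.lb, C'.lb, fun e => ⟨_, _, C'.idx_pos e,
    C.idx_pos e, mul_comm _ _, iso X Z X' f f' A s Q Q' S S' C C' hN hN' s1 s2 hD hD' h.str e⟩,
    ?_, ?_⟩
  · obtain ⟨ε, hε, k⟩ := hO X Z f _ _ _ hN s1.holMap C.lb a
    refine ⟨ε, hε, fun n D hD hn => ?_⟩
    have := k (-n) D hD fun e => key (C.idx_pos e) hε (by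
      rw [← abs_neg]
      refine lt_of_eq_of_lt (congrArg _ ?_) (hn e)
      cases e using Fin.cases <;> simp <;> ring)
    have e : HD.Bd.lin C.fam (-n) = Bd.inv (HD.Bd.lin C.fam n) := by simp [HD.Bd.lin, Bd.inv]
    exact e ▸ this
  · obtain ⟨ε, hε, k⟩ := hO X' Z f' _ _ _ hN' s2.holMap C'.lb a'
    exact ⟨ε, hε, fun n D hD hn => k n D hD fun e => key (C'.idx_pos e) hε 
      (lt_of_eq_of_lt (congrArg _ (by ring)) (hn e))⟩

/-- generators with positive coefficients -/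
theorem exists_gen {s k : ℕ} {b : Fin s → ℝ} {μ : Fin k → ℝ} (hb : ∀ t, 0 ≤ b t)
    (hμ : ∀ j, 0 ≤ μ j) : ∃ (k' : ℕ) (x : Fin k' → ℝ) (m : Fin k' → ℕ) (β : Fin k' → Fin s → ℕ)
      (ν : Fin k' → Fin k → ℕ), (∀ a, 0 < x a) ∧ ∑ a, x a * m a = 1 ∧
      (∀ t, ∑ a, x a * β a t = b t) ∧ ∀ j, ∑ a, x a * ν a j = μ j := by
  classical
  refine ⟨s + k + 1, Fin.cons 1 (Fin.append (fun t => if b t = 0 then 1 else b t)
    fun j => if μ j = 0 then 1 else μ j), Fin.cons 1 0,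
    Fin.cons 0 (Fin.append (fun t t' => if t = t' ∧ b t ≠ 0 then 1 else 0) 0),
    Fin.cons 0 (Fin.append 0 fun j j' => if j = j' ∧ μ j ≠ 0 then 1 else 0), ?_, ?_, ?_, ?_⟩
  · refine Fin.cases (by simp) (Fin.addCases (fun t => ?_) fun j => ?_)
    · simp only [Fin.cons_succ, Fin.append_left]
      split_ifs with h
      exacts [one_pos, (hb t).lt_of_ne' h]
    · simp only [Fin.cons_succ, Fin.append_right]
      split_ifs with h
      exacts [one_pos, (hμ j).lt_of_ne' h]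
  · simp [Fin.sum_univ_succ]
  · intro t
    simp only [Fin.sum_univ_succ, Fin.sum_univ_add, Fin.cons_succ, Fin.cons_zero, Fin.append_left,
      Fin.append_right]
    rw [Finset.sum_eq_single t] <;> simp +contextual
  · intro j
    simp only [Fin.sum_univ_succ, Fin.sum_univ_add, Fin.cons_succ, Fin.cons_zero, Fin.append_left,
      Fin.append_right]
    rw [Finset.sum_eq_single j] <;> simp +contextual

/-! ### monomials -/

variable {V : Lg} {y : V.W}

theorem Mon.mul {n n' : Fin V.r → ℤ} {F F' : V.W → ℂ} (h : Mon V n F y) (h' : Mon V n' F' y) :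
    Mon V (n + n') (fun x => F x * F' x) y := fun ζ hζ => by
  obtain ⟨u, a1, a2, a3⟩ := h ζ hζ
  obtain ⟨u', b1, b2, b3⟩ := h' ζ hζ
  refine ⟨fun x => u x * u' x, fun e he => (a1 e he).mul (b1 e he), mul_ne_zero a2 b2, ?_⟩
  filter_upwards [a3, b3, hζ.iff] with x c1 c2 c3 c4
  rw [c1 c4, c2 c4, mul_mul_mul_comm, ← Finset.prod_mul_distrib]
  refine congrArg _ (Finset.prod_congr rfl fun l _ => (zpow_add₀ (fun k => c4 ?_) _ _).symm)
  exact mem_iUnion.2 ⟨l, (c3 l).1 k⟩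

theorem Mon.zpow {n : Fin V.r → ℤ} {F : V.W → ℂ} (h : Mon V n F y) (k : ℤ) :
    Mon V (fun l => k * n l) (fun x => F x ^ k) y := fun ζ hζ => by
  obtain ⟨u, a1, a2, a3⟩ := h ζ hζ
  refine ⟨fun x => u x ^ k, fun e he => (a1 e he).zpow (by rwa [e.left_inv he.2]),
    zpow_ne_zero _ a2, a3.mono fun x c1 c2 => ?_⟩
  simp only [c1 c2, mul_zpow, ← Finset.prod_zpow, ← zpow_mul, mul_comm k]

theorem Mon.prod {ι : Type} (T : Finset ι) {n : ι → Fin V.r → ℤ} {F : ι → V.W → ℂ}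
    (h : ∀ i, Mon V (n i) (F i) y) : Mon V (∑ i ∈ T, n i) (fun x => ∏ i ∈ T, F i x) y := by
  classical
  induction T using Finset.induction_on with
  | empty => exact fun ζ _ => ⟨1, fun _ _ => analyticAt_const, one_ne_zero, by simp⟩
  | insert i T hi ih => simpa only [Finset.sum_insert hi, Finset.prod_insert hi] using (h i).mul ih

theorem Mon.ord {n : Fin V.r → ℤ} {F : V.W → ℂ} (h : Mon V n F y) {ζ} (hζ : V.Eq y ζ) {l : Fin V.r}
    (hl : ∀ k, k ≠ l → y ∉ V.G k) {e : Chart 4 V.W} (he : At e y) :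
    Ord (fun w => F (e.symm w)) (fun w => ζ l (e.symm w)) (e y) (n l) ∧
      ∀ᶠ w in 𝓝 (e y), ζ l (e.symm w) ≠ 0 → e.symm w ∉ V.E := by
  classical
  obtain ⟨u, a1, a2, a3⟩ := h ζ hζ
  have k1 : ∀ k, k ≠ l → ζ k y ≠ 0 := fun k a b => hl k a ((hζ.iff.self_of_nhds k).1 b)
  have k2 : ∀ᶠ x in 𝓝 y, ζ l x ≠ 0 → x ∉ V.E := by
    filter_upwards [hζ.iff, eventually_all.2 fun k : {k // k ≠ l} =>
      (V.closed k).isOpen_compl.mem_nhds (hl k k.2)] with x c1 c2 c3 c4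
    obtain ⟨k, hk⟩ := mem_iUnion.1 c4
    by_cases c : k = l
    · exact c3 ((c1 l).2 (c ▸ hk))
    · exact c2 ⟨k, c⟩ hk
  have t := e.tendsto_symm he.2
  refine ⟨⟨fun w => u (e.symm w) * ∏ k ∈ Finset.univ.erase l, ζ k (e.symm w) ^ n k,
    (a1 e he).mul (Finset.analyticAt_fun_prod _ fun k hk => (hζ.hol k e he).zpow ?_), ?_, ?_⟩,
    t.eventually k2⟩
  · rw [e.left_inv he.2]; exact k1 k (Finset.ne_of_mem_erase hk)
  · simp only [e.left_inv he.2]
    exact mul_ne_zero a2 (Finset.prod_ne_zero_iff.2 fun k hk =>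
      zpow_ne_zero _ (k1 k (Finset.ne_of_mem_erase hk)))
  · filter_upwards [t.eventually a3, t.eventually k2] with w c1 c2 c3
    rw [c1 (c2 c3), mul_assoc, Finset.prod_erase_mul _ _ (Finset.mem_univ l)]

theorem isCh_symm {e : Chart 4 V.W} (he : At e y) : IsCh V.X e.symm (e y) := by
  have k : IsOpenEmb V.X univ (id : V.W → V.W) :=
    ⟨isOpen_univ, continuousOn_id, injOn_id _, fun W _ h => (image_id W).symm ▸ h, fun y _ e he g =>
      ⟨fun h => h e he, fun h => PH.holF_of he h⟩⟩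
  refine ⟨k.holAt (mem_univ y) he, _, _, _, _, ?_, k.isModel y he.1, ?_⟩
  · exact ⟨_, ⟨trivial, e.map_target (e.map_source he.2)⟩, rfl⟩
  · filter_upwards [e.open_target.mem_nhds (e.map_source he.2)] with w hw
    exact (congrArg e (k.inv_apply y (mem_univ (e.symm w)))).trans (e.right_inv hw)

theorem lg_reg (y : V.W) : IsReg 4 V.X y := by
  have he : At (chartAt (Cm 4) y) y := ⟨chart_mem_atlas _ _, mem_chart_source _ _⟩
  obtain ⟨-, W, Ω, h, φ, a, b, -⟩ := isCh_symm (V := V) he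
  exact ⟨W, Ω, h, φ, by rwa [(chartAt (Cm 4) y).left_inv he.2] at a, b⟩

end Vale.Agent.P277Z.St
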