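import Vale.Agent.P277Z.Glc.BIso
import Vale.Agent.P277.H615.D3

/-!
# P277: the calculus of relatively very ample and of free line bundles
-/

open scoped Topology
open Vale.Agent.P277 Vale.Agent.P277.H615
open Vale.Agent.P272.K Vale.Agent.P285.H281.FD Set Filter

noncomputable section

namespace Vale.Agent.P277Z.St.Op

variable {X Z : CSp} {f : X.pt → Z.pt}

theorem lb_mul {L M : Bd X.pt} (h : IsLBx X L) (h' : IsLBx X M) : IsLBx X (L.mul M) where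
  isOpen i := (h.isOpen i.1).inter (h'.isOpen i.2)
  cover x := by
    obtain ⟨i, hi⟩ := h.cover x
    obtain ⟨j, hj⟩ := h'.cover x
    exact ⟨(i, j), hi, hj⟩
  holo i j x hi hj := hol_mul (h.holo _ _ x hi.1 hj.1) (h'.holo _ _ x hi.2 hj.2)
  ne_zero i j x hi hj := mul_ne_zero (h.ne_zero _ _ x hi.1 hj.1) (h'.ne_zero _ _ x hi.2 hj.2)
  cocycle i j k x hi hj hk := by
    show L.g i.1 j.1 x * M.g i.2 j.2 x * (L.g j.1 k.1 x * M.g j.2 k.2 x) =
      L.g i.1 k.1 x * M.g i.2 k.2 x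
    rw [← h.cocycle _ _ _ x hi.1 hj.1 hk.1, ← h'.cocycle _ _ _ x hi.2 hj.2 hk.2]
    ring

/-- ampleness does not change under refinement of the cover -/
theorem relAmple_refine {M M' : Bd X.pt} (hM : IsLBx X M) (hM' : IsLBx X M') (hf : Continuous f)
    (r : M'.ι → M.ι) (hr : ∀ j x, x ∈ M'.U j → x ∈ M.U (r j))
    (hg : ∀ j j' x, x ∈ M'.U j → x ∈ M'.U j' → M'.g j j' x = M.g (r j) (r j') x) :
    RelAmple X Z f M ↔ RelAmple X Z f M' := by
  refine ⟨Glc.BIso.relAmple (τ := fun i j => M.g (r j) i) ⟨fun y i j hi hj =>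
    ⟨hM.holo _ _ y (hr j y hj) hi, hM.ne_zero _ _ y (hr j y hj) hi⟩,
    fun y i i₁ j j₁ hi hi₁ hj hj₁ => ?_⟩ hM hM' hf,
    Glc.BIso.relAmple (τ := fun j i => M.g i (r j)) ⟨fun y j i hj hi =>
    ⟨hM.holo _ _ y hi (hr j y hj), hM.ne_zero _ _ y hi (hr j y hj)⟩,
    fun y j j₁ i i₁ hj hj₁ hi hi₁ => ?_⟩ hM' hM hf⟩
  · rw [hg j₁ j y hj₁ hj, ← hM.cocycle _ _ _ y (hr j₁ y hj₁) (hr j y hj) hi₁,
      ← hM.cocycle _ _ _ y (hr j y hj) hi hi₁]
    ring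
  · rw [hg j j₁ y hj hj₁, ← hM.cocycle _ _ _ y hi₁ hi (hr j₁ y hj₁),
      ← hM.cocycle _ _ _ y hi (hr j y hj) (hr j₁ y hj₁)]
    ring

theorem sec_zero (V : Set X.pt) (L : Bd X.pt) : IsSecx X V L fun _ _ => 0 :=
  ⟨fun _ x _ _ => hol_const 0 x, fun _ _ _ _ _ _ => (mul_zero _).symm⟩

theorem va_fin {L : Bd X.pt} {V : Set Z.pt} {κ : Type} [Fintype κ] {s : κ → L.ι → X.pt → ℂ}
    (h : VA X Z f L V κ s) :
    ∃ (N : ℕ) (s' : Fin (N + 1) → L.ι → X.pt → ℂ), VA X Z f L V (Fin (N + 1)) s' := by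
  rcases isEmpty_or_nonempty κ with hκ | hκ
  · exact ⟨0, fun _ _ _ => 0, fun _ => sec_zero _ _,
      fun x i hx hi => (h.bpf x i hx hi).elim isEmptyElim,
      fun x _ i _ hx _ _ hi _ => (h.bpf x i hx hi).elim isEmptyElim,
      fun x i _ hx hi => (h.bpf x i hx hi).elim isEmptyElim⟩
  obtain ⟨N, hN⟩ := Nat.exists_eq_succ_of_ne_zero (Fintype.card_ne_zero (α := κ))
  let e : κ ≃ Fin (N + 1) := Fintype.equivFinOfCardEq hN
  refine ⟨N, fun l => s (e.symm l), fun l => h.sec _, fun x i hx hi => ?_,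
    fun x x' i j hx h1 h2 hi hj => ?_, fun x i l hx hi hl g hg => ?_⟩
  · obtain ⟨l, hl⟩ := h.bpf x i hx hi
    exact ⟨e l, by rwa [e.symm_apply_apply]⟩
  · obtain ⟨l, m, hl⟩ := h.sep x x' i j hx h1 h2 hi hj
    exact ⟨e l, e m, by rwa [e.symm_apply_apply, e.symm_apply_apply]⟩
  · obtain ⟨M, k, G, h1, h3, h4⟩ := h.jet x i _ hx hi hl g hg
    let R : (Fin (N + 1) → ℂ) →L[ℂ] (κ → ℂ) :=
      ContinuousLinearMap.pi fun c => ContinuousLinearMap.proj (e c)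
    have hR : ∀ y, R (fun m => s (e.symm m) i y / s (e.symm l) i y) =
        fun c => s c i y / s (e.symm l) i y := fun y => funext fun c => by
      show s (e.symm (e c)) i y / _ = _
      rw [e.symm_apply_apply]
    refine ⟨M, k, fun p => G (p.1, R p.2), h1, AnalyticAt.fun_comp (g := G) (by rwa [hR])
      (analyticAt_fst.prod ((R.analyticAt _).comp analyticAt_snd)), ?_⟩
    filter_upwards [h4] with y hy
    rw [hR]
    exact hy

/-- a family of line bundles with the same cover, additive in the parameter -/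
structure Sys (X : CSp) (G : Type) [AddCommGroup G] where
  /-- the index set -/
  ι : Type
  /-- the cover -/
  U : ι → Set X.pt
  /-- the cocycles -/
  g : G → ι → ι → X.pt → ℂ
  lb : ∀ v, IsLBx X ⟨ι, U, g v⟩
  add : ∀ v w i j x, x ∈ U i → x ∈ U j → g (v + w) i j x = g v i j x * g w i j x

namespace Sys

variable {G : Type} [AddCommGroup G] (S : Sys X G)

/-- the bundle -/
abbrev B (v : G) : Bd X.pt := ⟨S.ι, S.U, S.g v⟩

theorem g_zero {i j : S.ι} {x : X.pt} (hi : x ∈ S.U i) (hj : x ∈ S.U j) : S.g 0 i j x = 1 := by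
  have h := S.add 0 0 i j x hi hj
  rw [add_zero] at h
  exact mul_left_cancel₀ ((S.lb 0).ne_zero i j x hi hj) (by rw [mul_one]; exact h.symm)

theorem g_nsmul (v : G) (k : ℕ) {i j : S.ι} {x : X.pt} (hi : x ∈ S.U i) (hj : x ∈ S.U j) :
    S.g (k • v) i j x = S.g v i j x ^ k := by
  induction k with
  | zero => rw [zero_smul, pow_zero, S.g_zero hi hj]
  | succ k ih => rw [succ_nsmul, S.add _ _ _ _ _ hi hj, ih, pow_succ]

theorem g_neg (v : G) {i j : S.ι} {x : X.pt} (hi : x ∈ S.U i) (hj : x ∈ S.U j) :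
    S.g (-v) i j x = (S.g v i j x)⁻¹ :=
  eq_inv_of_mul_eq_one_left (by rw [← S.add _ _ _ _ _ hi hj, neg_add_cancel, S.g_zero hi hj])

variable {S} {v w : G} {O : Set X.pt} {s t : S.ι → X.pt → ℂ}

theorem sec_mul (hs : IsSecx X O (S.B v) s) (ht : IsSecx X O (S.B w) t) :
    IsSecx X O (S.B (v + w)) fun i x => s i x * t i x where
  holo i x hx hi := hol_mul (hs.holo i x hx hi) (ht.holo i x hx hi)
  change i j x hx hi hj := by
    show s i x * t i x = S.g (v + w) i j x * (s j x * t j x)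
    rw [hs.change i j x hx hi hj, ht.change i j x hx hi hj, S.add v w i j x hi hj]
    ring

theorem sec_pow (k : ℕ) : IsSecx X O ((S.B v).pow k) s ↔ IsSecx X O (S.B (k • v)) s :=
  ⟨fun h => ⟨h.holo, fun i j x hx hi hj =>
    (h.change i j x hx hi hj).trans (congrArg (· * s j x) (S.g_nsmul v k hi hj).symm)⟩,
    fun h => ⟨h.holo, fun i j x hx hi hj =>
      (h.change i j x hx hi hj).trans (congrArg (· * s j x) (S.g_nsmul v k hi hj))⟩⟩

variable (S) in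
/-- some section over the base does not vanish at `x` -/
def Ge (Z : CSp) (f : X.pt → Z.pt) (v : G) (x : X.pt) : Prop :=
  ∃ (V : Set Z.pt) (s : S.ι → X.pt → ℂ), IsOpen V ∧ f x ∈ V ∧ IsSecx X (f ⁻¹' V) (S.B v) s ∧
    ∀ i, x ∈ S.U i → s i x ≠ 0

variable (S) in
/-- very ample over a neighbourhood of `z` -/
def Va (Z : CSp) (f : X.pt → Z.pt) (v : G) (z : Z.pt) : Prop :=
  ∃ (V : Set Z.pt) (κ : Type) (_ : Fintype κ) (s : κ → S.ι → X.pt → ℂ), IsOpen V ∧ z ∈ V ∧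
    VA X Z f (S.B v) V κ s

theorem nz_of (hs : IsSecx X O (S.B v) s) {x : X.pt} (hx : x ∈ O) {j : S.ι} (hj : x ∈ S.U j)
    (h : s j x ≠ 0) (i : S.ι) (hi : x ∈ S.U i) : s i x ≠ 0 := by
  rw [hs.change i j x hx hi hj]
  exact mul_ne_zero ((S.lb v).ne_zero i j x hi hj) h

theorem nz_ev (hO : IsOpen O) (hs : IsSecx X O (S.B v) s) {x : X.pt} (hx : x ∈ O)
    (h : ∀ i, x ∈ S.U i → s i x ≠ 0) : ∀ᶠ y in 𝓝 x, y ∈ O ∧ ∀ i, y ∈ S.U i → s i y ≠ 0 := by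
  obtain ⟨j, hj⟩ := (S.lb v).cover x
  filter_upwards [hO.mem_nhds hx, ((S.lb v).isOpen j).mem_nhds hj,
    (hol_continuousAt (hs.holo j x hx hj)).eventually_ne (h j hj)] with y h1 h2 h3
  exact ⟨h1, nz_of hs h1 h2 h3⟩

theorem Ge.ev (hf : Continuous f) {x : X.pt} (h : S.Ge Z f v x) : ∀ᶠ y in 𝓝 x, S.Ge Z f v y :=
  let ⟨V, s, h1, h2, h3, h4⟩ := h
  (nz_ev (h1.preimage hf) h3 h2 h4).mono fun _ hy => ⟨V, s, h1, hy.1, h3, hy.2⟩

theorem Ge.add {x : X.pt} (h : S.Ge Z f v x) (h' : S.Ge Z f w x) : S.Ge Z f (v + w) x :=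
  let ⟨V, _, h1, h2, h3, h4⟩ := h
  let ⟨V', _, k1, k2, k3, k4⟩ := h'
  ⟨V ∩ V', _, h1.inter k1, ⟨h2, k2⟩, sec_mul (IsSecx.mono h3 fun _ hy => hy.1)
    (IsSecx.mono k3 fun _ hy => hy.2), fun i hi => mul_ne_zero (h4 i hi) (k4 i hi)⟩

theorem ge_zero (x : X.pt) : S.Ge Z f 0 x :=
  ⟨univ, fun _ _ => 1, isOpen_univ, trivial, ⟨fun _ y _ _ => hol_const 1 y,
    fun _ _ _ _ hi hj => ((mul_one _).trans (S.g_zero hi hj)).symm⟩, fun _ _ => one_ne_zero⟩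

theorem Ge.nsmul {x : X.pt} (h : S.Ge Z f v x) (k : ℕ) : S.Ge Z f (k • v) x := by
  induction k with
  | zero => rw [zero_smul]; exact ge_zero x
  | succ k ih => rw [succ_nsmul]; exact ih.add h

theorem Ge.zsmul {x : X.pt} (h : S.Ge Z f v x) (h' : S.Ge Z f (-v) x) (k : ℤ) :
    S.Ge Z f (k • v) x := by
  rcases Int.eq_nat_or_neg k with ⟨n, rfl | rfl⟩
  · rw [natCast_zsmul]; exact h.nsmul n
  · rw [neg_smul, ← smul_neg, natCast_zsmul]; exact h'.nsmul n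

theorem ge_sum {α : Type} (T : Finset α) {u : α → G} {x : X.pt} (h : ∀ a ∈ T, S.Ge Z f (u a) x) :
    S.Ge Z f (∑ a ∈ T, u a) x :=
  Finset.sum_induction u (fun v => S.Ge Z f v x) (fun _ _ => Ge.add) (ge_zero x) h

theorem ge_triv (h : HD.IsTriv X (S.B v)) (x : X.pt) : S.Ge Z f v x ∧ S.Ge Z f (-v) x := by
  obtain ⟨s, h1, h2⟩ := h
  have h3 := IsSecx.inv h1 fun i y _ hi => h2 i y hi
  exact ⟨⟨univ, s, isOpen_univ, trivial, h1, fun i => h2 i x⟩,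
    ⟨univ, _, isOpen_univ, trivial, ⟨h3.holo, fun i j y hy hi hj => (h3.change i j y hy hi hj).trans
      (congrArg (· * (s j y)⁻¹) (S.g_neg v hi hj).symm)⟩, fun i hi => inv_ne_zero (h2 i x hi)⟩⟩

theorem Va.ev {z : Z.pt} (h : S.Va Z f v z) : ∀ᶠ y in 𝓝 z, S.Va Z f v y :=
  let ⟨V, κ, i, s, h1, h2, h3⟩ := h
  (h1.eventually_mem h2).mono fun _ hy => ⟨V, κ, i, s, h1, hy, h3⟩

theorem Va.ge {x : X.pt} (h : S.Va Z f v (f x)) : S.Ge Z f v x := by
  obtain ⟨V, κ, _, s, h1, h2, h3⟩ := h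
  obtain ⟨j, hj⟩ := (S.lb v).cover x
  obtain ⟨l, hl⟩ := h3.bpf x j h2 hj
  exact ⟨V, s l, h1, h2, h3.sec l, nz_of (h3.sec l) h2 hj hl⟩

/-- finitely many sections without common zeros -/
theorem exists_free (hf : Continuous f) {z : Z.pt} (h : ∀ x, f x = z → S.Ge Z f w x) :
    ∃ (V : Set Z.pt) (κ : Type) (_ : Fintype κ) (t : κ → S.ι → X.pt → ℂ), IsOpen V ∧ z ∈ V ∧
      (∀ a, IsSecx X (f ⁻¹' V) (S.B w) (t a)) ∧
      ∀ x i, f x ∈ V → x ∈ S.U i → ∃ a, t a i x ≠ 0 := by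
  choose V t h1 h2 h3 h4 using fun x : f ⁻¹' {z} => h x x.2
  obtain ⟨T, hT⟩ := (isClosed_singleton.preimage hf).isCompact.elim_nhds_subcover'
    (fun x hx => interior {y | ∀ i, y ∈ S.U i → t ⟨x, hx⟩ i y ≠ 0}) fun x hx =>
      interior_mem_nhds.2 ((nz_ev ((h1 _).preimage hf) (h3 _) (h2 ⟨x, hx⟩) (h4 _)).mono
        fun _ hy => hy.2)
  obtain ⟨V', k1, k2, k3⟩ := exists_nhds_preimage_subset hf
    (isOpen_biUnion fun _ _ => isOpen_interior) hT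
  refine ⟨V' ∩ ⋂ x ∈ T, V x, T, inferInstance, fun a => t a,
    k1.inter (isOpen_biInter_finset fun x _ => h1 x),
    ⟨k2, mem_iInter₂.2 fun x _ => (show f x = z from x.2) ▸ h2 x⟩,
    fun a => IsSecx.mono (h3 a) fun y hy => mem_iInter₂.1 hy.2 a a.2, fun y i hy hi => ?_⟩
  obtain ⟨x, hx, hy'⟩ := mem_iUnion₂.1 (k3 hy.1)
  exact ⟨⟨x, hx⟩, interior_subset hy' i hi⟩

/-- very ample times free is very ample -/
theorem va_mul {V : Set Z.pt} {κ κ' : Type} [Fintype κ] [Fintype κ'] {s : κ → S.ι → X.pt → ℂ}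
    {t : κ' → S.ι → X.pt → ℂ} (h : VA X Z f (S.B v) V κ s)
    (ht : ∀ a, IsSecx X (f ⁻¹' V) (S.B w) (t a))
    (h0 : ∀ x i, f x ∈ V → x ∈ S.U i → ∃ a, t a i x ≠ 0) :
    VA X Z f (S.B (v + w)) V (κ × κ') fun p i x => s p.1 i x * t p.2 i x where
  sec p := sec_mul (h.sec p.1) (ht p.2)
  bpf x i hx hi := by
    obtain ⟨l, hl⟩ := h.bpf x i hx hi
    obtain ⟨a, ha⟩ := h0 x i hx hi
    exact ⟨(l, a), mul_ne_zero hl ha⟩
  sep x x' i j hx e hne hi hj := by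
    by_contra! hc
    obtain ⟨l₀, hl⟩ := h.bpf x i hx hi
    obtain ⟨m₀, hm⟩ := h.bpf x' j (e ▸ hx) hj
    obtain ⟨a, ha⟩ := h0 x i hx hi
    obtain ⟨b, hb⟩ := h0 x' j (e ▸ hx) hj
    have h1 : t a j x' ≠ 0 := fun h1 => mul_ne_zero (mul_ne_zero hl ha) (mul_ne_zero hm hb)
      ((hc (l₀, a) (m₀, b)).trans (by simp only [h1, mul_zero]))
    obtain ⟨l, m, hlm⟩ := h.sep x x' i j hx e hne hi hj
    refine hlm (mul_right_cancel₀ (mul_ne_zero ha h1) ?_)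
    linear_combination hc (l, a) (m, a)
  jet := by
    rintro x i ⟨l, a⟩ hx hi hl g hg
    obtain ⟨M, k, F, h1, h3, h4⟩ := h.jet x i l hx hi (left_ne_zero_of_mul hl) g hg
    let R : (κ × κ' → ℂ) →L[ℂ] (κ → ℂ) :=
      ContinuousLinearMap.pi fun c => ContinuousLinearMap.proj (c, a)
    have hR : ∀ y, t a i y ≠ 0 → R (fun q => s q.1 i y * t q.2 i y / (s l i y * t a i y)) =
        fun c => s c i y / s l i y := fun y hy => funext fun c => mul_div_mul_right _ _ hy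
    refine ⟨M, k, fun p => F (p.1, R p.2), h1, AnalyticAt.fun_comp (g := F)
      (by rwa [hR x (right_ne_zero_of_mul hl)])
      (analyticAt_fst.prod ((R.analyticAt _).comp analyticAt_snd)), ?_⟩
    filter_upwards [h4, (hol_continuousAt ((ht a).holo i x hx hi)).eventually_ne
      (right_ne_zero_of_mul hl)] with y hy hy'
    rw [hR y hy']
    exact hy

theorem Va.add (hf : Continuous f) {z : Z.pt} (h : S.Va Z f v z)
    (h' : ∀ x, f x = z → S.Ge Z f w x) : S.Va Z f (v + w) z := by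
  obtain ⟨V, κ, _, s, h1, h2, h3⟩ := h
  obtain ⟨V', κ', _, t, k1, k2, k3, k4⟩ := exists_free hf h'
  exact ⟨V ∩ V', κ × κ', inferInstance, _, h1.inter k1, ⟨h2, k2⟩,
    va_mul (h3.mono inter_subset_left) (fun a => IsSecx.mono (k3 a) fun _ hy => hy.2)
      fun x i hx => k4 x i hx.2⟩

theorem Va.nsmul (hf : Continuous f) {z : Z.pt} (h : S.Va Z f v z) {k : ℕ} (hk : 1 ≤ k) :
    S.Va Z f (k • v) z := by
  obtain ⟨k, rfl⟩ := Nat.exists_eq_add_of_le hk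
  rw [add_smul, one_smul]
  exact h.add hf fun x hx => (Va.ge (hx ▸ h)).nsmul k

theorem relAmple_iff : RelAmple X Z f (S.B v) ↔ ∀ z, ∃ k, 1 ≤ k ∧ S.Va Z f (k • v) z := by
  refine forall_congr' fun z => ⟨?_, ?_⟩
  · rintro ⟨V, k, N, s, h1, h2, h3, h4, h5, h6, h7⟩
    exact ⟨k, h3, V, _, inferInstance, s, h1, h2, fun l => (sec_pow k).1 (h4 l), h5, h6, h7⟩
  · rintro ⟨k, h3, V, κ, _, s, h1, h2, h⟩
    obtain ⟨N, s', h'⟩ := va_fin h
    exact ⟨V, k, N, s', h1, h2, h3, fun l => (sec_pow k).2 (h'.sec l), h'.bpf, h'.sep, h'.jet⟩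

end Sys

/-- uniform bounds on compact spaces -/
theorem exists_unif {T : Type} [TopologicalSpace T] [CompactSpace T] {P : ℕ → T → Prop}
    (h1 : ∀ m x, P m x → ∀ᶠ y in 𝓝 x, P m y) (h2 : ∀ m m' x, m ≤ m' → P m x → P m' x)
    (h3 : ∀ x, ∃ m, P m x) : ∃ M, ∀ m, M ≤ m → ∀ x, P m x := by
  choose μ hμ using h3
  obtain ⟨t, -, ht⟩ := isCompact_univ.elim_nhds_subcover (fun x => {y | P (μ x) y})
    fun x _ => h1 _ x (hμ x)
  refine ⟨t.sup μ, fun m hm y => ?_⟩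
  obtain ⟨x, hx, hy⟩ := mem_iUnion₂.1 (ht (mem_univ y))
  exact h2 _ _ y ((Finset.le_sup hx).trans hm) hy

/-- a common multiple is very ample everywhere -/
theorem Sys.va_unif {G : Type} [AddCommGroup G] {S : Sys X G} {v : G} (hf : Continuous f)
    (h : RelAmple X Z f (S.B v)) : ∃ M, ∀ m : ℕ, M ≤ m → ∀ z, S.Va Z f (m.factorial • v) z := by
  have key : ∀ (a b : ℕ) z, a ∣ b → b ≠ 0 → S.Va Z f (a • v) z → S.Va Z f (b • v) z := by
    rintro a _ z ⟨c, rfl⟩ hb hz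
    rw [mul_comm, mul_smul]
    exact hz.nsmul hf (Nat.pos_of_ne_zero (right_ne_zero_of_mul hb))
  refine exists_unif (fun _ _ => Sys.Va.ev) (fun m m' z hm =>
    key _ _ z (Nat.factorial_dvd_factorial hm) (Nat.factorial_ne_zero _)) fun z => ?_
  obtain ⟨k, hk, hz⟩ := Sys.relAmple_iff.1 h z
  exact ⟨k, key _ _ z (Nat.dvd_factorial hk le_rfl) (Nat.factorial_ne_zero _) hz⟩

end Vale.Agent.P277Z.St.Op
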