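import Vale.Agent.P277Z.St.OpenA
import Vale.Agent.P277Z.GH.Sk
import Vale.Agent.P277Z.Pj.Sk2
import Vale.Agent.P277Z.Val.USk

/-!
# P277: a line bundle twisted by a large power of a relatively ample one is relatively free
-/

open scoped Topology
open Vale.Agent.P277 Vale.Agent.P277.H615
open Vale.Agent.P272.K Vale.Agent.P285.H281.FD Set Filter
open Vale.Agent.P277.HD (pull)
open Vale.Agent.P277Z.Val (Lg)

noncomputable section

namespace Vale.Agent.P277Z.St.Op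

theorem lb_iff {V : Lg} {L : Bd V.W} : IsLB 4 L ↔ IsLBx V.X L :=
  ⟨fun h => ⟨h.isOpen, h.cover, fun i j x hi hj e he => (h.holo i j e x he hi hj).analyticAt,
    h.ne_zero, h.cocycle⟩, fun h => ⟨h.isOpen, h.cover,
    fun i j e x he hi hj => (h.holo i j x hi hj e he).contDiffAt, h.ne_zero, h.cocycle⟩⟩

variable {X Z : CSp} {f : X.pt → Z.pt} {G : Type} [AddCommGroup G] {S : Sys X G}

theorem Sys.free (h0 : GH.StRes0) (h1 : Val.StAmpC) (h2 : Val.StAn) (h3 : Pj.RAP)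
    (h4 : Pj.GENPT) (hX : IsNormal 4 X) (hf : ∀ x, HolMap X Z f x) (v : G) {w : G}
    (hw : ∀ z, S.Va Z f w z) (x : X.pt) : ∃ m : ℕ, S.Ge Z f (v + m • w) x := by
  have hfc : Continuous f := continuous_iff_continuousAt.2 fun x => (hf x).1
  have hA : RelAmple X Z f (S.B w) :=
    Sys.relAmple_iff.2 fun z => ⟨1, le_rfl, by rw [one_smul]; exact hw z⟩
  obtain ⟨V, p, hR, -⟩ := h0 X hX
  obtain ⟨P, c, τ, hP, hPa, hc, hd⟩ := hR.amp
  have hp : Val.HolTo V X p := ⟨hR.cont, hR.hol⟩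
  obtain ⟨-, -, hdesc⟩ :=
    h2 V X p _ P c τ hX ⟨hp, hR.surj, hR.emb, hR.inj, hR.dim, hP, hPa, hc, hd⟩
  obtain ⟨N, hN⟩ := h1 V X Z p f P (S.B w) hp hf hP (S.lb w) hPa hA
  have hq : Pj.HolTo 4 Z fun y => f (p y) :=
    ⟨hfc.comp hR.cont, fun y g hg => hR.hol y _ ((hf _).2 g hg)⟩
  have hl : ∀ u, IsLBx V.X (pull p (S.B u)) := fun u =>
    Glc.lb_pull (Y := V.X) (S.lb u) fun y => ⟨hR.cont.continuousAt, hR.hol y⟩
  have hG := @h3 3 V.W V.top V.t2 V.cpt V.ch V.mf Z _ _ hq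
    (lb_iff.2 (lb_mul (lb_iff.1 hP) (Glc.lb_pow (hl w) N))) (hN N le_rfl)
  obtain ⟨O, κ, _, s₀, hO, hx, hs₀⟩ := hw (f x)
  obtain ⟨r, s, hs⟩ := va_fin hs₀
  obtain ⟨y₀, rfl⟩ := hR.surj x
  obtain ⟨i₀, hi₀⟩ := (S.lb v).cover (p y₀)
  have hfree : Pj.FreeOn 4 (pull p (S.B w)) ((fun y => f (p y)) ⁻¹' O) fun l i y => s l i (p y) :=
    ⟨fun l y hy i hi => ⟨hR.hol y _ ((hs.sec l).holo i _ hy hi),
      fun j hj => (hs.sec l).change i j _ hy hi hj⟩, fun y hy i hi => hs.bpf _ i hy hi⟩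
  obtain ⟨k, O', g, hO', hx', hg, hg0⟩ := @h4 3 V.W V.top V.t2 V.cpt V.ch V.mf Z
    (fun y => f (p y)) (pull p (S.B w)) (pull p (S.B v)) hq hG (lb_iff.2 (hl w))
    (lb_iff.2 (hl v)) O r _ hO hfree y₀ hx
    (Or.inr ⟨fun i y => S.g v i i₀ (p y), fun i hi => (S.lb v).ne_zero i i₀ _ hi hi₀,
      fun y hy => by
        have hy' := connectedComponentIn_subset _ _ hy
        have e : p y = p y₀ := by
          by_contra hne
          obtain ⟨j, hj⟩ := (S.lb v).cover (p y)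
          obtain ⟨l, m, hlm⟩ := hs.sep (p y₀) (p y) i₀ j hx hy'.1 hne hi₀ hj
          exact hlm (hy'.2 l m i₀ j hi₀ hj)
        filter_upwards [hR.cont.continuousAt.preimage_mem_nhds
          (((S.lb v).isOpen i₀).mem_nhds (e ▸ hi₀))] with y' h' i hi
        exact ⟨hR.hol y' _ ((S.lb v).holo i i₀ _ hi h'),
          fun j hj => ((S.lb v).cocycle i j i₀ _ hi hj h').symm⟩⟩)
  choose H hH hH' using fun i : S.ι => hdesc (f ⁻¹' O' ∩ S.U i) (g (i, i))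
    ((hO'.preimage hfc).inter ((S.lb v).isOpen i)) fun y hy => (hg y hy.1 (i, i) ⟨hy.2, hy.2⟩).1
  refine ⟨k, O', H, hO', hx', ⟨fun i x hx hi => hH i x ⟨hx, hi⟩, fun i j x hx hi hj => ?_⟩,
    fun i hi => ?_⟩
  · obtain ⟨y, rfl⟩ := hR.surj x
    rw [← hH' i y ⟨hx, hi⟩, ← hH' j y ⟨hx, hj⟩, (hg y hx (i, i) ⟨hi, hi⟩).2 (j, j) ⟨hj, hj⟩]
    show S.g v i j (p y) * S.g w i j (p y) ^ k * _ = S.g (v + k • w) i j (p y) * _
    rw [S.add _ _ _ _ _ hi hj, S.g_nsmul _ _ hi hj]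
  · rw [← hH' i y₀ ⟨hx', hi⟩]
    exact hg0 (i, i) ⟨hi, hi⟩

/-- (SERRE) a twist by a large multiple of an ample class is ample -/
theorem Sys.amp_twist (h0 : GH.StRes0) (h1 : Val.StAmpC) (h2 : Val.StAn) (h3 : Pj.RAP)
    (h4 : Pj.GENPT) (hX : IsNormal 4 X) (hf : ∀ x, HolMap X Z f x) (v : G) {w : G}
    (hw : RelAmple X Z f (S.B w)) : ∃ m : ℕ, RelAmple X Z f (S.B (v + m • w)) := by
  have hfc : Continuous f := continuous_iff_continuousAt.2 fun x => (hf x).1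
  obtain ⟨K, hK⟩ := Sys.va_unif hfc hw
  have hK := hK K le_rfl
  obtain ⟨M, hM⟩ := exists_unif (P := fun m x => S.Ge Z f (v + m • K.factorial • w) x)
    (fun _ _ => Sys.Ge.ev hfc) (fun m m' x hm h => by
      obtain ⟨d, rfl⟩ := Nat.exists_eq_add_of_le hm
      rw [add_smul, ← add_assoc]
      exact h.add ((hK _).ge.nsmul d)) (Sys.free h0 h1 h2 h3 h4 hX hf v hK)
  refine ⟨(M + 1) * K.factorial, Sys.relAmple_iff.2 fun z => ⟨1, le_rfl, ?_⟩⟩
  rw [one_smul, mul_smul, add_smul, one_smul, ← add_assoc, add_comm]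
  exact (hK z).add hfc fun x _ => hM M le_rfl x

theorem Sys.amp_add (hf : Continuous f) {v w : G} (hv : RelAmple X Z f (S.B v))
    (hw : RelAmple X Z f (S.B w)) : RelAmple X Z f (S.B (v + w)) := by
  obtain ⟨K, hK⟩ := Sys.va_unif hf hv
  obtain ⟨K', hK'⟩ := Sys.va_unif hf hw
  refine Sys.relAmple_iff.2 fun z => ⟨(K + K').factorial, Nat.factorial_pos _, ?_⟩
  rw [smul_add]
  exact (hK _ (Nat.le_add_right _ _) z).add hf fun x _ => (hK' _ (Nat.le_add_left _ _) _).ge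

theorem Sys.amp_div {v : G} {j : ℕ} (hj : 1 ≤ j) (hv : RelAmple X Z f (S.B (j • v))) :
    RelAmple X Z f (S.B v) :=
  Sys.relAmple_iff.2 fun z =>
    let ⟨k, hk, h⟩ := Sys.relAmple_iff.1 hv z
    ⟨k * j, Nat.mul_pos hk hj, by rwa [mul_smul]⟩

theorem Sys.amp_triv (hf : Continuous f) {v t : G} (ht : HD.IsTriv X (S.B t)) (c : ℤ)
    (hv : RelAmple X Z f (S.B v)) : RelAmple X Z f (S.B (v + c • t)) :=
  Sys.relAmple_iff.2 fun z =>
    let ⟨k, hk, h⟩ := Sys.relAmple_iff.1 hv z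
    ⟨k, hk, by
      rw [smul_add]
      exact h.add hf fun x _ => ((Sys.ge_triv ht x).1.zsmul (Sys.ge_triv ht x).2 c).nsmul k⟩

end Vale.Agent.P277Z.St.Op
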