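import Vale.Agent.P277Z.St.Sk
import Vale.Agent.P277Z.Val.Mon
import Vale.Agent.P277Z.Luf.Hol

/-!
# P277: monomials with integer exponents, the orders of a Cartier divisor
-/

open scoped Manifold ContDiff Topology ComplexOrder
open Vale.Agent.P277 hiding Amin IsFlipR
open Vale.Agent.P272.K Vale.Agent.P285.H281.FD Vale.Agent.P277.HD Set Filter
open Vale.Agent.P277.PH (HolF)
open Vale.Agent.P277Z.Val

noncomputable section

namespace Vale.Agent.P277Z.St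

variable {V : Lg} {y : V.W} {F F' u : V.W → ℂ} {n n' : Fin V.r → ℤ}

theorem holF_zprod {s : Finset (Fin V.r)} {t : Fin V.r → V.W → ℂ} (h : ∀ l ∈ s, HolF 4 (t l) y)
    (h' : ∀ l ∈ s, t l y ≠ 0) (m : Fin V.r → ℤ) : HolF 4 (fun x => ∏ l ∈ s, t l x ^ m l) y :=
  Hol.prod s fun l hl => Hol.zpow (h l hl) (h' l hl) _

theorem Mon.of_exists {ζ} (hζ : V.Eq y ζ) (h1 : HolF 4 u y) (h2 : u y ≠ 0)
    (h3 : ∀ᶠ x in 𝓝 y, x ∉ V.E → F x = u x * ∏ l, ζ l x ^ n l) : Mon V n F y := by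
  intro ζ' hζ'
  obtain ⟨t, k1, k2⟩ := hζ'.unit hζ
  refine ⟨fun x => u x * ∏ l, t l x ^ n l,
    h1.mul (holF_zprod (fun l _ => (k1 l).1) (fun l _ => (k1 l).2) n),
    mul_ne_zero h2 (Finset.prod_ne_zero_iff.2 fun l _ => zpow_ne_zero _ (k1 l).2), ?_⟩
  filter_upwards [h3, k2] with x e1 e2 e3
  simp only [e1 e3, e2, mul_zpow, Finset.prod_mul_distrib]
  ring

theorem Mon.eventually (h : Mon V n F y) : ∀ᶠ x in 𝓝 y, Mon V n F x := by
  obtain ⟨ζ, hζ⟩ := V.exEq y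
  obtain ⟨u, h1, h2, h3⟩ := h ζ hζ
  filter_upwards [hζ.eventually, holF_ev h1, (holF_cont h1).eventually_ne h2, h3.eventually_nhds]
    with x a b c d using .of_exists a b c d

theorem Mon.unit (h : Mon V n F y) (h1 : HolF 4 u y) (h2 : u y ≠ 0)
    (h3 : ∀ᶠ x in 𝓝 y, x ∉ V.E → F' x = u x * F x) : Mon V n F' y := by
  intro ζ hζ
  obtain ⟨t, k1, k2, k3⟩ := h ζ hζ
  exact ⟨_, h1.mul k1, mul_ne_zero h2 k2, by
    filter_upwards [h3, k3] with x a b c using by rw [a c, b c, mul_assoc]⟩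

theorem mon_zero (h1 : HolF 4 u y) (h2 : u y ≠ 0) : Mon V 0 u y :=
  fun _ _ => ⟨u, h1, h2, .of_forall fun x _ => by simp⟩

/-- the exponents of the components which do not pass through `y` are arbitrary -/
theorem Mon.change (h : Mon V n F y) (e : ∀ l, y ∈ V.G l → n l = n' l) : Mon V n' F y := by
  classical
  intro ζ hζ
  obtain ⟨u, k1, k2, k3⟩ := h ζ hζ
  have h0 : ∀ l ∈ Finset.univ.filter fun l => y ∉ V.G l, ζ l y ≠ 0 := fun l a b =>
    (Finset.mem_filter.1 a).2 ((hζ.iff.self_of_nhds l).1 b)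
  refine ⟨fun x => u x * ∏ l with y ∉ V.G l, ζ l x ^ (n l - n' l),
    k1.mul (holF_zprod (fun l _ => hζ.hol l) h0 _),
    mul_ne_zero k2 (Finset.prod_ne_zero_iff.2 fun l hl => zpow_ne_zero _ (h0 l hl)), ?_⟩
  filter_upwards [k3, hζ.ne] with x a b c
  rw [a c, mul_assoc, Finset.prod_filter, ← Finset.prod_mul_distrib]
  refine congrArg _ (Finset.prod_congr rfl fun l _ => ?_)
  split_ifs with hl
  · rw [one_mul, e l hl]
  · rw [← zpow_add₀ (b c l), sub_add_cancel]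

theorem Mon.lb (h : Mon V n F y) : LB V y (fun x => Real.log ‖F x‖) fun l => n l := by
  intro ζ hζ
  obtain ⟨u, k1, k2, k3⟩ := h ζ hζ
  refine (bdd_log (holF_cont k1) k2).congr ?_
  filter_upwards [k3, hζ.ne, (holF_cont k1).eventually_ne k2] with x a b c d
  have e : ∀ l ∈ Finset.univ, ‖ζ l x ^ n l‖ ≠ 0 := fun l _ =>
    norm_ne_zero_iff.2 (zpow_ne_zero _ (b d l))
  rw [a d, norm_mul, norm_prod, Real.log_mul (norm_ne_zero_iff.2 c) (Finset.prod_ne_zero_iff.2 e),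
    Real.log_prod e]
  simp [Real.log_zpow]

theorem Mon.unique (h : Mon V n F y) (h' : Mon V n' F y) {l : Fin V.r} (hl : y ∈ V.G l) :
    n l = n' l :=
  Int.cast_injective (h.lb.unique h'.lb hl)

/-- a meromorphic function with zeros and poles only on the components -/
theorem exists_mon {a b : V.W → ℂ} (ha : HolF 4 a y) (hb : HolF 4 b y) (h0 : Nz b y)
    (h : ∀ᶠ x in 𝓝 y, x ∉ V.E → HolF 4 F x ∧ F x ≠ 0 ∧ F x * b x = a x) : ∃ n, Mon V n F y := by
  obtain ⟨d, a', b', hd, ha', hb', k⟩ := (luf 4 V.W y).gcd a b ha hb h0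
  have h1 : Nz d y := fun e => h0 (by
    filter_upwards [e, k] with x e1 e2 using by rw [e2.2.1, e1, zero_mul])
  have h2 : ∀ᶠ x in 𝓝 y, x ∉ V.E → F x * b' x = a' x := by
    filter_upwards [gen_near (h1.gen hd), h.eventually_nhds, k.eventually_nhds, holF_ev ha',
      holF_ev hb'] with x e1 e2 e3 e4 e5 hx
    refine eq_of_gen (holF_cont ((e2.self_of_nhds hx).1.mul e5)) (holF_cont e4) ?_
    filter_upwards [e1, gen_of_nhds e2, gen_of_nhds e3,
      gen_of_nhds (V.closedE.isOpen_compl.eventually_mem hx)] with z c1 c2 c3 c4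
    refine mul_left_cancel₀ c1 ?_
    rw [← c3.1, ← (c2 c4).2.2, c3.2.1]
    ring
  have h3 : ∀ᶠ x in 𝓝 y, x ∉ V.E → b' x ≠ 0 := by
    filter_upwards [h, h2.eventually_nhds, k] with x e1 e2 e3 hx e4
    obtain ⟨c, -, e5⟩ := e3.2.2 _ (hol_const 1 x) ⟨F, (e1 hx).1, by
      filter_upwards [e2, V.closedE.isOpen_compl.eventually_mem hx] with z c1 c2
      rw [one_mul, c1 c2]⟩
    simpa [e4] using e5.self_of_nhds
  obtain ⟨α, hα⟩ := Val.exists_mon ha' (by
    filter_upwards [h, h2, h3] with x e1 e2 e3 hx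
    exact e2 hx ▸ mul_ne_zero (e1 hx).2.1 (e3 hx))
  obtain ⟨β, hβ⟩ := Val.exists_mon hb' h3
  obtain ⟨ζ, hζ⟩ := V.exEq y
  obtain ⟨u, u1, u2, u3⟩ := hα ζ hζ
  obtain ⟨v, v1, v2, v3⟩ := hβ ζ hζ
  refine ⟨fun l => α l - β l, .of_exists (u := fun x => u x / v x) hζ (Hol.div u1 v1 v2)
    (div_ne_zero u2 v2) ?_⟩
  filter_upwards [h2, h3, u3, v3, hζ.ne] with x e1 e2 e3 e4 e5 hx
  rw [eq_div_of_mul_eq (e2 hx) (e1 hx), e3, e4, mul_div_mul_comm, ← Finset.prod_div_distrib]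
  exact congrArg _ (Finset.prod_congr rfl fun l _ => by
    rw [zpow_sub₀ (e5 hx l), zpow_natCast, zpow_natCast])

/-- global exponents of a family of local functions which agree up to units -/
theorem exists_glob' {κ : Type} (D : κ → Set V.W) (f : κ → V.W → ℂ) (ho : ∀ i, IsOpen (D i))
    (hc : ∀ y, ∃ i, y ∈ D i) (ex : ∀ i, ∀ y ∈ D i, ∃ n, Mon V n (f i) y)
    (hu : ∀ i j, ∀ y ∈ D i, y ∈ D j → ∃ u, HolF 4 u y ∧ u y ≠ 0 ∧
      ∀ᶠ x in 𝓝 y, x ∉ V.E → f j x = u x * f i x) : ∃ n, ∀ i, ∀ y ∈ D i, Mon V n (f i) y := by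
  have key : ∀ n i, ∀ y ∈ D i, Mon V n (f i) y → ∀ j, y ∈ D j → Mon V n (f j) y := by
    intro n i y hi h j hj
    obtain ⟨u, a, b, c⟩ := hu i j y hi hj
    exact h.unit a b c
  obtain ⟨n, hn⟩ := exists_glob (fun y n => ∀ i, y ∈ D i → Mon V n (f i) y) (fun y => by
    obtain ⟨i, hi⟩ := hc y
    exact (ex i y hi).imp fun n h => key n i y hi h) (fun y n h => by
    obtain ⟨i, hi⟩ := hc y
    filter_upwards [(h i hi).eventually, (ho i).mem_nhds hi] with x a b using key n i x b a)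
    (fun y n n' l hl h h' => by
      obtain ⟨i, hi⟩ := hc y
      exact (h i hi).unique (h' i hi) hl) fun y n n' h e i hi => (h i hi).change e
  exact ⟨n, fun i y => hn y i⟩

theorem IsBim.evO {X Z : CSp} {f : X.pt → Z.pt} {A : Set Z.pt} (h : IsBim X Z f A) {x : X.pt}
    (hx : f x ∉ A) {p : Z.pt → Prop} (hp : ∀ᶠ x' in 𝓝 x, p (f x')) : ∀ᶠ z in 𝓝 (f x), p z := by
  obtain ⟨U, h1, h2, h3⟩ := eventually_nhds_iff.1 hp
  obtain ⟨N, k1, k2, k3⟩ := exists_nhds_preimage_subset h.cont (z := f x) h2 fun x' e =>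
    h.inj x x' hx e ▸ h3
  filter_upwards [k1.mem_nhds k2] with z hz
  obtain ⟨x', rfl⟩ := h.surj z
  exact h1 x' (k3 hz)

theorem ordC : StOrdC := by
  intro V X q ι P n L σ A hq hc hE
  have h0 : ∀ y ∉ V.E, q y ∉ ⋃ t, P t := fun y hy e =>
    (mem_iUnion.1 e).elim fun t ht => hy (hE y t ht)
  have hh : ∀ y g, X.Hol g (q y) → HolF 4 (fun y => g (q y)) y := hq.holo
  refine (exists_glob' (fun i => q ⁻¹' L.U i) (fun i y => σ i (q y))
    (fun i => (hc.lb.isOpen i).preimage hq.cont) (fun y => hc.lb.cover _) (fun i y hy => ?_)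
    fun i j y hi hj => ⟨_, hh y _ (hc.lb.holo j i _ hj hi), hc.lb.ne_zero j i _ hj hi, ?_⟩).imp
    fun o ho y i => ho i y
  · obtain ⟨u, v, hu, hv, h⟩ := hc.mer i _ hy
    have h1 := hq.cont.continuousAt.eventually h
    refine exists_mon (hh y _ hu) (hh y _ hv) (fun e => ?_) ?_
    · obtain ⟨x, ⟨a, b⟩, c⟩ := mem_closure_iff_nhds.1 (hq.dense y) _ (h1.and e.eventually_nhds)
      exact a.1 (hq.evO c (p := fun z => v z = 0) b)
    · filter_upwards [h1, ((hc.lb.isOpen i).preimage hq.cont).mem_nhds hy] with x a b c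
      exact ⟨hh x _ (hc.sec.holo i _ (h0 x c) b), hc.ne i _ b (h0 x c), a.2 (h0 x c)⟩
  · filter_upwards [((hc.lb.isOpen i).preimage hq.cont).mem_nhds hi,
      ((hc.lb.isOpen j).preimage hq.cont).mem_nhds hj] with x a b c
    exact hc.sec.change j i _ (h0 x c) b a

end Vale.Agent.P277Z.St
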